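import Vale.Agent.P366Q.If
import Vale.Agent.P366M.End2
import Vale.Agent.P366M.Calc2
import Vale.Agent.P366Y.J.Alg
import Vale.Agent.P366Y.J.Touch

/-!
# P366Q, block J: the equation of the gauge on a manifold (statements, algebra, touching)

`io Ga GA PROF Psd big_mono` are those of `P366Y.J`.
-/

open MeasureTheory Metric Filter Topology Set
open scoped ContDiff ENNReal
open Vale.Agent.P366 Vale.Agent.P366.Stmt Vale.Agent.P366Z Vale.Agent.P366Y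
open Vale.Agent.P366Y.J (io Ga GA PROF Psd big_mono)

noncomputable section

namespace Vale.Agent.P366M.Y.J

variable {n : ℕ} {M : Type} [Mfe n M]

/-- **TOUCH**: at a local minimum of `f - w` -/
def TOUCH : Prop := ∀ (n : ℕ) (M : Type) [Mfe n M] (f w : M → ℝ) (x : M) (a : Mx n), CAt 2 f x →
  CAt 2 w x → IsLocalMin (fun y => f y - w y) x → Psd a →
  D1 f x = D1 w x ∧ ∀ g : Fld n M, pr2 a (hess g w x) ≤ pr2 a (hess g f x)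

/-- the matrix `g⁻¹ - c p p` -/
def am (g : Fld n M) (x : M) (c : ℝ) (p : Vc n) : Mx n := fun i j =>
  up g i j x - c * rs g x p i * rs g x p j

/-- **ALG**: the algebra of the matrix `g⁻¹ - c p p` -/
def ALG : Prop := ∀ (n : ℕ) (M : Type) [Mfe n M] (g : Fld n M) (x : M) (c : ℝ) (p : Vc n), Met g →
  0 ≤ c → c * sq g x p ≤ 1 → 0 ≤ sq g x p ∧ Psd (am g x c p) ∧
  (∀ ξ : Vc n, (1 - c * sq g x p) * sq g x ξ ≤ ∑ i, ∑ j, am g x c p i j * ξ i * ξ j ∧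
    ∑ i, ∑ j, am g x c p i j * ξ i * ξ j ≤ sq g x ξ) ∧
  (∀ (q : Vc n) (e : ℝ), p = e • q →
    pr2 (am g x c p) (fun i j => q i * q j) = sq g x q * (1 - c * sq g x p)) ∧
  pr2 (am g x c p) (g x) = n - c * sq g x p ∧
  ∀ T : Fld n M, (∀ i j, T x i j = T x j i) →
    pr2 (am g x c p) (T x) ^ 2 ≤ n * normSq g T x ∧ 0 ≤ normSq g T x ∧
    ((∀ ξ : Vc n, 0 ≤ ∑ i, ∑ j, T x i j * ξ i * ξ j) → 0 ≤ pr2 (am g x c p) (T x)) ∧
    ∀ (F : M → ℝ) (e : ℝ), gn g F x ≠ 0 → p = e • D1 F x → ∃ ν : ℝ, ν ^ 2 ≤ normSq g T x ∧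
      trS g T F x = tr g T x - ν ∧
      pr2 (am g x c p) (T x) = trS g T F x + (1 - c * sq g x p) * ν

/-- **HCP**: the Hessian of a composition -/
def HCP : Prop := ∀ (n : ℕ) (M : Type) [Mfe n M] (g : Fld n M) (b : ℝ → ℝ) (F : M → ℝ) (x : M),
  ContDiff ℝ ∞ b → Smooth F → D1 (fun y => b (F y)) x = deriv b (F x) • D1 F x ∧
    (∀ i j, hess g (fun y => b (F y)) x i j =
      deriv (deriv b) (F x) * (D1 F x i * D1 F x j) + deriv b (F x) * hess g F x i j) ∧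
    sq g x (D1 F x) = ip g F F x

/-- **JSUP**: the bound of `f` -/
def JSUP : Prop := ∀ (n : ℕ) (M : Type) [Mfe n M] (X : Dat n M) (P : Pa) (s l σ A : ℝ)
  (ψ f : M → ℝ), X.Ok → P.Ok → P.ForM X → 0 < s → 0 < l → σ ∈ Icc (0 : ℝ) 1 → Ps X P A ψ →
  Jf X P s l σ ψ f → ∀ x, |f x| ≤ 8 * P.F₀

/-- **JGRAD**: the bound of the gradient -/
def JGRAD : Prop := ∀ (n : ℕ) (M : Type) [Mfe n M] (X : Dat n M), X.Ok → ∃ C : ℝ, ∀ P : Pa,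
  Cx X P C → ∃ l₀ : ℝ, ∀ l ≥ l₀, ∃ N ≥ (1 : ℝ), ∀ s > (0 : ℝ), ∀ σ ∈ Icc (0 : ℝ) 1,
    ∀ (A : ℝ) (ψ f : M → ℝ), Ps X P A ψ → Jf X P s l σ ψ f → ∀ x, ‖fd f x‖ ≤ N

/-- **JINN**: the inner barrier -/
def JINN : Prop := ∀ (n : ℕ) (M : Type) [Mfe n M] (X : Dat n M), X.Ok → ∃ C : ℝ, ∀ P : Pa,
  Cx X P C → ∀ (s l A : ℝ) (ψ f : M → ℝ), 0 < s → 0 < l → Ps X P A ψ → Jf X P s l 1 ψ f →
    ∀ x, X.F x ≤ 0 → 2 * P.F₀ ≤ f x

/-- **JOUT**: the dead core -/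
def JOUT : Prop := ∀ (n : ℕ) (M : Type) [Mfe n M] (X : Dat n M), X.Ok → ∃ C : ℝ, ∀ P : Pa,
  Cx X P C → ∀ (s l A : ℝ) (ψ f : M → ℝ), 0 < s → 0 < l → Ps X P A ψ → Jf X P s l 1 ψ f →
    ∀ x, X.R + 1 ≤ ‖px x‖ → |f x| ≤ s

/-- **JHOL**: the Hölder estimate of the gradient -/
def JHOL : Prop := ∃ C : ℝ, ∀ (n : ℕ) (M : Type) [Mfe n M] (X : Dat n M) (P : Pa) (l N : ℝ),
  Cx X P C → ∃ θ ∈ Ioo (0 : ℝ) 1, ∃ K > (0 : ℝ), ∀ s > (0 : ℝ), ∀ σ ∈ Icc (0 : ℝ) 1,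
    ∀ A ≥ (1 : ℝ), ∀ ψ f : M → ℝ, Ps X P A ψ → Jf X P s l σ ψ f → B1 P N f → Hs θ K A f

/-- **JC2**: the estimate of Schauder -/
def JC2 : Prop := ∃ C : ℝ, ∀ (n : ℕ) (M : Type) [Mfe n M] (X : Dat n M) (P : Pa)
  (s l N A θ K : ℝ), Cx X P C → θ ∈ Ioo (0 : ℝ) 1 → 1 ≤ A → ∃ K' : ℝ, ∀ ψ f : M → ℝ,
    Ps X P A ψ → Jf X P s l 1 ψ f → B1 P N f → Hs θ K A f → (∃ A₁, C2H θ A₁ f) → C2H θ K' f

/-- **JEX**: existence -/
def JEX : Prop := ∃ C : ℝ, ∀ (n : ℕ) (M : Type) [Mfe n M] (X : Dat n M) (P : Pa), Cx X P C →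
  ∃ l₀ : ℝ, ∀ l ≥ l₀, ∀ (s A N θ K : ℝ) (ψ : M → ℝ), θ ∈ Ioo (0 : ℝ) 1 → 1 ≤ A → Ps X P A ψ →
    (∀ σ ∈ Icc (0 : ℝ) 1, ∀ f, Jf X P s l σ ψ f → B1 P N f ∧ Hs θ K A f) →
    ∃ f, Jf X P s l 1 ψ f ∧ ∃ A₁, C2H θ A₁ f

/-- **JCT**: continuous dependence on `ψ` -/
def JCT : Prop := ∃ C : ℝ, ∀ (n : ℕ) (M : Type) [Mfe n M] (X : Dat n M) (P : Pa) (s l θ K : ℝ),
  Cx X P C → 0 < s → 0 < l → θ ∈ Ioo (0 : ℝ) 1 → ∀ e > (0 : ℝ), ∃ d > (0 : ℝ),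
    ∀ (A A' : ℝ) (ψ ψ' f f' : M → ℝ), Ps X P A ψ → Ps X P A' ψ' → Jf X P s l 1 ψ f →
    Jf X P s l 1 ψ' f' → C2H θ K f → C2H θ K f' → (∀ x, |ψ x - ψ' x| ≤ d) →
    ∀ x, |f x - f' x| ≤ e ∧ ‖D1 f x - D1 f' x‖ ≤ e ∧ ‖D2 f x - D2 f' x‖ ≤ e

/-- **JD2**: the second derivatives at the scale `1 / A` -/
def JD2 : Prop := ∃ C : ℝ, ∀ (n : ℕ) (M : Type) [Mfe n M] (X : Dat n M) (P : Pa) (l N θ K : ℝ),
  Cx X P C → θ ∈ Ioo (0 : ℝ) 1 → ∃ K' > (0 : ℝ), ∀ A ≥ (1 : ℝ), ∀ s ≥ 1 / A ^ 2, ∀ ψ f : M → ℝ,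
    Ps X P A ψ → Jf X P s l 1 ψ f → B1 P N f → Hs θ K A f → ∀ x, ‖D2 f x‖ ≤ K' * A

/-- **JEXP**: the exponential decay in the dead core -/
def JEXP : Prop := ∃ C : ℝ, ∀ (n : ℕ) (M : Type) [Mfe n M] (X : Dat n M) (P : Pa), Cx X P C →
  ∃ c > (0 : ℝ), ∀ (s l A : ℝ) (ψ f : M → ℝ), 0 < s → s ≤ 1 → Ps X P A ψ → Jf X P s l 1 ψ f →
    (∀ x, X.R + 1 ≤ ‖px x‖ → |f x| ≤ s) →
    ∀ x, X.R + 7 / 2 ≤ ‖px x‖ → ‖px x‖ ≤ X.R + 13 / 2 → |f x| ≤ s * Real.exp (-(c / √s))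

theorem Cx.mono {X : Dat n M} {P : Pa} {C C' : ℝ} (h : Cx X P C) (e : C' ≤ C) : Cx X P C' :=
  ⟨h.hX, h.hP, h.fo, big_mono h.hP h.big e⟩

theorem U0 {X : Dat n M} (h : X.Ok) (x : M) : 0 < X.U x := by linarith [(h.Ub x).1]

theorem mg {X : Dat n M} (h : X.Ok) : Met X.g := h.met.cf h.smU (U0 h)

theorem rc_mem (r : ℝ) (x : M) : 0 ≤ rc r x ∧ rc r x ≤ 1 := P366Y.J.rc_mem r (px x)

theorem rc_one {r : ℝ} (hr : 0 ≤ r) {x : M} (hx : ‖px x‖ ≤ r) : rc r x = 1 :=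
  P366Y.J.rc_one hr hx

theorem rc_zero {r : ℝ} (hr : 0 ≤ r) {x : M} (hx : r + 1 ≤ ‖px x‖) : rc r x = 0 :=
  P366Y.J.rc_zero hr hx

theorem sm_rc (r : ℝ) : Smooth (rc r : M → ℝ) := smooth_px (P366Y.J.sm_rc r)

theorem ag_eq (X : Dat n M) (P : Pa) (ψ : M → ℝ) (x : M) (p : Vc n) :
    ag X P ψ x p = am X.g x (rc (X.R + 7) x * P.Gs (ψ x) (sq X.g x p)) p := rfl

theorem pr2_hess (a : Mx n) (g : Fld n M) (f : M → ℝ) (x : M) : pr2 a (hess g f x) =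
    pr2 a (D2 f x) - pr2 a fun i j => ∑ k, (chr g k i j x - chr bg k i j x) * D1 f x k := by
  simp only [pr2, hess, D2, D1, ← Finset.sum_sub_distrib, sub_mul]
  refine Finset.sum_congr rfl fun i _ => Finset.sum_congr rfl fun j _ => ?_
  rw [Finset.sum_sub_distrib]
  ring

theorem pr2_aJ (X : Dat n M) (P : Pa) (ψ : M → ℝ) (x : M) (p : Vc n) (H : Mx n) :
    pr2 (aJ X P ψ x p) H = X.U x ^ (2 * bb n) * pr2 (ag X P ψ x p) H := by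
  simp only [pr2, aJ, Finset.mul_sum, mul_assoc]

/-- the geometric form of the equation -/
theorem geo {X : Dat n M} {P : Pa} {s l : ℝ} {ψ f : M → ℝ} (hX : X.Ok)
    (h : Jf X P s l 1 ψ f) {x : M} (hx : ‖px x‖ ≤ X.R + 7) :
    pr2 (ag X P ψ x (D1 f x)) (hess X.g f x) = P.om (ψ x) (ip X.g f f x) *
      (pr2 (ag X P ψ x (D1 f x)) (X.K x) + cap X P s x (f x)) := by
  have e := h.eqn x
  have u := Real.rpow_pos_of_pos (U0 hX x) (2 * bb n)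
  rw [pr2_aJ, bJ, rc_one (by linarith [hX.R1]) hx] at e
  simp only [mul_one, one_mul, sub_self, zero_mul, add_zero] at e
  have e3 := mul_left_cancel₀ u.ne' e
  rw [pr2_hess, e3]
  have : sq X.g x (D1 f x) = ip X.g f f x := rfl
  rw [this]; ring

theorem sq_pt (g : Fld n M) (x : M) (p : Vc n) :
    P366Y.sq (rep (ch x) g) (pt x) p = sq g x p := by
  simp only [P366Y.sq, sq, up_pt]

theorem rs_pt (g : Fld n M) (x : M) (p : Vc n) :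
    P366Y.rs (rep (ch x) g) (pt x) p = rs g x p := by
  funext i
  simp only [P366Y.rs, rs, up_pt]

theorem am_pt (g : Fld n M) (x : M) (c : ℝ) (p : Vc n) :
    P366Y.J.am (rep (ch x) g) (pt x) c p = am g x c p := by
  funext i j
  simp only [P366Y.J.am, am, up_pt, rs_pt]

theorem trS_pt (g T : Fld n M) (F : M → ℝ) (x : M) :
    Stmt.trS (rep (ch x) g) (rep (ch x) T) (loc (ch x) F) (pt x) = trS g T F x := by
  simp only [Stmt.trS, trS, tr_pt, nrm_pt, rep_pt]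

/-- **row ALG** -/
theorem alg : ALG := by
  intro n M _ g x c p hg hc h1
  have h := P366Y.J.alg n (rep (ch x) g) (pt x) c p (hg.loc' x) hc (by rwa [sq_pt])
  simp only [sq_pt, am_pt, rep_pt] at h
  obtain ⟨a1, a2, a3, a4, a5, a6⟩ := h
  refine ⟨a1, a2, a3, a4, a5, fun T hT => ?_⟩
  have k := a6 (rep (ch x) T) (by simpa only [rep_pt] using hT)
  simp only [rep_pt, normSq_pt, tr_pt] at k
  refine ⟨k.1, k.2.1, k.2.2.1, fun F e h0 he => ?_⟩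
  simpa only [trS_pt] using k.2.2.2 (loc (ch x) F) e (by rwa [gn_pt]) he

/-- **row TOUCH** -/
theorem touch : TOUCH := by
  intro n M _ f w x a hf hw hm ha
  obtain ⟨h1, h2⟩ := P366Y.J.touch n (loc (ch x) f) (loc (ch x) w) (pt x) a hf hw
    (isLocalMin_loc hm) ha
  have e : ∀ k, pd k f x = pd k w x := fun k => congrFun h1 k
  refine ⟨h1, fun g => ?_⟩
  simp only [pr2, hess, mul_sub, Finset.sum_sub_distrib, e]
  exact sub_le_sub_right h2 _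

/-- **row HCP** -/
theorem hcp : HCP := by
  intro n M _ g b F x hb hF
  refine ⟨funext fun i => pd_comp (hb.differentiable (by simp) _).hasDerivAt (hF.diff x) i,
    fun i j => ?_, rfl⟩
  rw [hess_comp (hb.of_le two_le_oo).contDiffAt (hF.c2 x), add_comm]
  rfl

end Vale.Agent.P366M.Y.J
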