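import Vale.Agent.P366Q.J.Coef

/-!
# P366Q, block J: Hölder bounds of the coefficients, rows JC2 and JEX
-/

open MeasureTheory Metric Filter Topology Set
open scoped ContDiff ENNReal
open Vale.Agent.P366 Vale.Agent.P366.Stmt Vale.Agent.P366Z Vale.Agent.P366Y
open Vale.Agent.P366Y.J (io Ga GA PROF Psd big_mono)
open Vale.Agent.P366Y.JL (Ld)

noncomputable section

namespace Vale.Agent.P366M.Y.J

variable {n : ℕ} {M : Type} [Mfe n M] {X : Dat n M} {P : Pa} {C : ℝ}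

/-- the bounds of a solution give the Hölder bound of its jet -/
theorem ho_jet (M : Type) [Mfe n M] (P : Pa) {θ A : ℝ} (N K : ℝ) (hθ : θ ∈ Ioo (0 : ℝ) 1)
    (hA : 1 ≤ A) : ∃ Q, ∀ f : M → ℝ, Smooth f → B1 P N f → Hs θ K A f → HoJ θ Q (J1 f) := by
  obtain ⟨B, hB⟩ := exists_big M
  refine ⟨max (8 * (8 * P.F₀ + n * (B * N))) (max (B * N) (|K| * A ^ θ)), fun f hf h1 h2 => ?_⟩
  have d := fun x => (d1_le_fd (hf.diff x)).trans (h1 x).2
  refine ⟨((hB.hoS1 hf.diff (fun x => (h1 x).1) d).of_one hθ.1.le hθ.2.le).mono (le_max_left _ _),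
    HoC.mono (fun x => ⟨fun y hy => ?_, fun y hy z hz => (h2 x y hy z hz).trans ?_⟩)
      (le_max_right _ _)⟩
  · exact (hB.rC_le (one4 x hy) _).trans
      (le_max_of_le_left (mul_le_mul_of_nonneg_left (d _) hB.pos.le))
  · rw [Real.mul_rpow (by linarith) (norm_nonneg _), ← mul_assoc]
    exact mul_le_mul_of_nonneg_right (le_max_of_le_right (mul_le_mul_of_nonneg_right
      (le_abs_self K) (Real.rpow_nonneg (by linarith) _))) (rp0 _ _ _)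

/-- the coefficients along a Hölder jet -/
theorem ho_ab (hX : X.Ok) (hP : P.Ok) (hG : Gx P C) {θ A : ℝ} (s l N : ℝ)
    (hθ : θ ∈ Ioo (0 : ℝ) 1) (hA : 1 ≤ A) : ∃ Λ > (0 : ℝ), ∀ ψ j, Ps X P A ψ → HoJ θ N j →
      (∀ x, El Λ (aJ X P ψ x (j x).2)) ∧ HoU θ Λ (fun x => aJ X P ψ x (j x).2) ∧
      HoS θ Λ fun x => bJ X P s l 1 ψ x (j x).1 (j x).2 := by
  obtain ⟨B, hB⟩ := exists_big M
  obtain ⟨Λ, Λ0, h⟩ := coef hX hP hG 0 l N
  obtain ⟨Q, hQ⟩ : ∃ Q, Q = 8 + 8 * (n * (B * A)) + (1 + 1 / |s|) * |N| + |N| := ⟨_, rfl⟩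
  have B0 := hB.pos
  have q1 : 0 ≤ n * (B * A) := by positivity
  have q2 : 0 ≤ (1 + 1 / |s|) * |N| := by positivity
  have q3 := abs_nonneg N
  have ΛQ : Λ ≤ Λ * Q := le_mul_of_one_le_right Λ0.le (by linarith)
  refine ⟨Λ * Q, by linarith, fun ψ j hψ hj => ?_⟩
  have k := fun x y hy => h s 1 ⟨zero_le_one, le_rfl⟩ x y (one4 x hy) (loc (ch x) ψ y) (hψ.bd _)
    _ _ ((hj.1 x).1 y hy) ((hj.2 x).1 y hy)
  have k2 := fun x y hy z hz => (k x y hy).2.2 z (one4 x hz) (loc (ch x) ψ z) (hψ.bd _)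
    _ _ ((hj.1 x).1 z hz) ((hj.2 x).1 z hz)
  have l4 : ∀ x : M, ∀ y ∈ ball (pt x) 1, ∀ z ∈ ball (pt x) 1, ‖y - z‖ +
      |loc (ch x) ψ y - loc (ch x) ψ z| + (1 + 1 / |s|) *
        |loc (ch x) (fun x => (j x).1) y - loc (ch x) (fun x => (j x).1) z| +
      ‖rC (ch x) (fun x => (j x).2) y - rC (ch x) (fun x => (j x).2) z‖ ≤ Q * ‖y - z‖ ^ θ :=
    fun x y hy z hz => by
      have r0 := rp0 y z θ
      have a0 := le_rpow_eight (one4 x hy) (one4 x hz) hθ.1.le hθ.2.le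
      have a1 := (hB.lip hψ.sm.diff (fun x => (d1_le_fd (hψ.sm.diff x)).trans (hψ.lip x))
        (one4 x hy) (one4 x hz)).trans (mul_le_mul_of_nonneg_left a0 q1)
      have a2 := mul_le_mul_of_nonneg_right (le_abs_self N) r0
      have a3 := mul_le_mul_of_nonneg_left (((hj.1 x).2 y hy z hz).trans a2)
        (show 0 ≤ 1 + 1 / |s| by positivity)
      have a4 := ((hj.2 x).2 y hy z hz).trans a2
      rw [Real.norm_eq_abs] at a1 a3
      rw [hQ]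
      linarith
  refine ⟨fun x => ?_, fun x => ⟨fun y hy => ?_, fun y hy z hz => ?_⟩,
    fun x => ⟨fun y hy => ?_, fun y hy z hz => ?_⟩⟩
  · have := (k x _ (pt_mem x)).1
    rw [rC_pt, loc_pt, aJ_pt] at this
    exact el_mono this ΛQ
  · rw [aJ_rep (ch_mem x) 0]
    exact (norm2_le Λ0.le (k x y hy).1.2.1).trans ΛQ
  · rw [aJ_rep (ch_mem x) 0, aJ_rep (ch_mem x) 0, mul_assoc]
    refine (k2 x y hy z hz).1.trans (mul_le_mul_of_nonneg_left (le_trans ?_ (l4 x y hy z hz)) Λ0.le)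
    exact add_le_add_left (le_add_of_nonneg_right (by positivity)) _
  · rw [loc, bJ_rep hX (ch_mem x) s l 1 ψ fun x => (j x).2]
    exact (k x y hy).2.1.trans ΛQ
  · rw [loc, loc, bJ_rep hX (ch_mem x) s l 1 ψ fun x => (j x).2,
      bJ_rep hX (ch_mem x) s l 1 ψ fun x => (j x).2, mul_assoc]
    exact (k2 x y hy z hz).2.trans (mul_le_mul_of_nonneg_left (l4 x y hy z hz) Λ0.le)

/-- **row JC2** -/
theorem jc2_of (hG : GA) (hU : USCH) : JC2 := by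
  obtain ⟨C, -, hG⟩ := hG
  refine ⟨C, fun n M _ X P s l N A θ K hx hθ hA => ?_⟩
  obtain ⟨Q, hQ⟩ := ho_jet M P N K hθ hA
  obtain ⟨Λ, -, h⟩ := ho_ab hx.hX hx.hP (hG P hx.hP hx.big) s l Q hθ hA
  obtain ⟨C', -, hU⟩ := hU n M θ Λ hθ
  refine ⟨max Q (C' * (Q + Λ)), fun ψ f hψ hf hB hH ⟨A₁, hA₁⟩ => ?_⟩
  have hj := hQ f hf.sm hB hH
  obtain ⟨h1, h2, h3⟩ := h ψ _ hψ hj
  exact ⟨hf.sm.two, hj.1.mono (le_max_left _ _), hj.2.mono (le_max_left _ _),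
    (hU (fun x => aJ X P ψ x (D1 f x)) f Q Λ h1 h2 hf.sm.two ⟨A₁, hA₁.2.2.2⟩ hj.2.bd
      (by simp only [hf.eqn]; exact h3)).mono (le_max_right _ _)⟩

/-- **row JEX** -/
theorem jex_of (hG : GA) (h2 : QE) (h3 : REGQ) : JEX := by
  obtain ⟨C, -, hG⟩ := hG
  refine ⟨C, fun n M _ X P cx => ?_⟩
  have hX := cx.hX
  have hP := cx.hP
  replace hG : Gx P C := hG P hP cx.big
  obtain ⟨Λ₀, a1, hE⟩ := ell_a hX hP hG
  obtain ⟨l₀, hq⟩ := h2 n M Λ₀ X.ρ hX.dim hX.flat.R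
  refine ⟨max l₀ 1, fun l hl s A N θ K ψ hθ hA1 hps hap => ?_⟩
  have l0 : l₀ ≤ l := (le_max_left _ _).trans hl
  have l1 : 1 ≤ l := (le_max_right _ _).trans hl
  have reg : ∀ σ ∈ Icc (0 : ℝ) 1, ∀ v : M → ℝ, (∃ A₁, C2H θ A₁ v) →
      Tendsto v (cocompact M) (𝓝 0) →
      (∀ x, pr2 (aJ X P ψ x (D1 v x)) (D2 v x) = bJ X P s l σ ψ x (v x) (D1 v x)) →
      Jf X P s l σ ψ v := by
    rintro σ hσ v ⟨A₁, hv⟩ ht he
    refine ⟨?_, ht, ⟨θ, hθ, A₁, hv⟩, he⟩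
    have ok := fun x : M => lc_ok hX hP 0 (ch_mem x)
    have sψ : ∀ x : M, ContDiff ℝ ∞ fun w : E n × ℝ × Vc n => loc (ch x) ψ w.1 := fun x =>
      ContDiff.comp (g := loc (ch x) ψ) (hps.sm.lc (ch_mem x)) contDiff_fst
    refine h3 n M θ A₁ v (fun x q => aJ X P ψ x q.2) (fun x q => bJ X P s l σ ψ x q.1 q.2) hθ hv
      (fun x => ?_) (fun x => ?_) (fun x => ?_) he
    · have : jU (ch x) (fun x q => aJ X P ψ x q.2) =
          fun w => (lc X P 0 (ch x)).aJ P w.1 (loc (ch x) ψ w.1) w.2.2 := funext fun w => by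
        rw [jU, aJ_rep (ch_mem x) 0 ψ fun _ => tC (ch x) w.1 w.2.2, rC_tC (ch_mem x)]
      rw [this]
      exact contDiff_iff_contDiffAt.2 fun q => Ld.c_aJ (ok x) contDiff_fst (sψ x) contDiff_snd.snd
        (hG.lc (ok x) (hps.bd _) _ _)
    · have : jS (ch x) (fun x q => bJ X P s l σ ψ x q.1 q.2) =
          fun w => (lc X P 0 (ch x)).bJ P s l σ w.1 (loc (ch x) ψ w.1) w.2.1 w.2.2 :=
        funext fun w => by
          rw [jS, bJ_rep hX (ch_mem x) s l σ ψ fun _ => tC (ch x) w.1 w.2.2, rC_tC (ch_mem x)]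
      rw [this]
      exact contDiff_iff_contDiffAt.2 fun q => Ld.c_bJ (ok x) hP contDiff_fst (sψ x)
        contDiff_snd.fst contDiff_snd.snd (hG.lc (ok x) (hps.bd _) _ _) s l σ
    · obtain ⟨Λ, -, hΛ⟩ := hE A₁
      exact ⟨Λ, hΛ ψ x (hps.bd x) _ (hv.2.2.1.bd x)⟩
  have one : (1 : ℝ) ∈ Icc (0 : ℝ) 1 := ⟨zero_le_one, le_rfl⟩
  obtain ⟨Q, hQ⟩ := ho_jet M P N K hθ hA1
  have ql : Ql Λ₀ X.ρ l θ (fun _ => l) (fun j x => aJ X P ψ x (j x).2)
      (fun j x => bJ X P s l 1 ψ x (j x).1 (j x).2) := by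
    refine ⟨⟨_, hoS_const l⟩, fun N' => ?_, fun N' e he => ?_, fun j j' _ h x hx => ?_,
      ⟨Q, fun σ hσ v hv ht he => ?_⟩⟩
    · obtain ⟨Λ, -, hΛ⟩ := ho_ab hX hP hG s l N' hθ hA1
      refine ⟨Λ, fun j hj => ?_⟩
      obtain ⟨k1, k2, k3⟩ := hΛ ψ j hps hj
      refine ⟨⟨⟨Λ, k1⟩, fun x => a1 ψ x (hps.bd x) _, fun x hx => far_a hX ψ _ hx,
        fun _ => ⟨by linarith, le_rfl⟩, fun _ _ => rfl⟩, k1, k2, k3, fun x hx => ?_⟩
      simp only [bJ]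
      rw [rc_zero (by linarith [hX.R1]) (by linarith [hX.Rρ])]
      ring
    · obtain ⟨Λ, Λ0, hΛ⟩ := coef hX hP hG 0 l N'
      obtain ⟨T, hT⟩ : ∃ T, T = 1 + 1 / |s| := ⟨_, rfl⟩
      have T0 : 0 < T := by rw [hT]; positivity
      refine ⟨e / (Λ * (T + 1)), by positivity, fun j j' hj hj' hd x => ?_⟩
      have m4 : pt x ∈ ball (pt x) 4 := mem_ball_self (by norm_num)
      have k := (hΛ s 1 one x _ m4 _ (hps.bd x) _ _ (hj.1.bd x) (hj.2.bd x)).2.2 _ m4 _ (hps.bd x)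
        _ _ (hj'.1.bd x) (hj'.2.bd x)
      have e2 : ‖(j x).2 - (j' x).2‖ ≤ _ := (norm_snd_le (j x - j' x)).trans (hd x)
      have e3 : |(j x).1 - (j' x).1| ≤ _ := (norm_fst_le (j x - j' x)).trans (hd x)
      have d0 : 0 ≤ T * (e / (Λ * (T + 1))) := by positivity
      have q : Λ * (T * (e / (Λ * (T + 1))) + e / (Λ * (T + 1))) = e := by field_simp
      have e4 := mul_le_mul_of_nonneg_left e3 T0.le
      simp only [sub_self, norm_zero, abs_zero, zero_add, add_zero, aJ_pt, bJ_pt hX, ← hT] at k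
      exact ⟨k.1.trans ((mul_le_mul_of_nonneg_left (by linarith) Λ0.le).trans q.le),
        k.2.trans ((mul_le_mul_of_nonneg_left (by linarith) Λ0.le).trans q.le)⟩
    · have := h x (by linarith)
      simp only [this, and_self]
    · have hj := reg σ hσ v hv ht fun x => (he x).trans (by simp only [bJ, J1]; ring)
      exact hQ v hj.sm (hap σ hσ v hj).1 (hap σ hσ v hj).2
  obtain ⟨v, hv, ht, he⟩ := hq l l0 θ hθ _ _ _ ql
  exact ⟨v, reg 1 one v hv ht he, hv⟩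

end Vale.Agent.P366M.Y.J
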