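import Vale.Agent.P366Q.J.Defs
import Vale.Agent.P366Y.J.Exp

/-!
# P366Q, block J on manifolds: the exponential decay in the dead core
-/

open MeasureTheory Metric Filter Topology Set
open scoped ContDiff ENNReal
open Vale.Agent.P366 Vale.Agent.P366.Stmt Vale.Agent.P366Z Vale.Agent.P366Y
open Vale.Agent.P366Y.J (io Ga GA PROF Psd big_mono)
open Vale.Agent.P366Y.J.ExpH (atan)

noncomputable section

namespace Vale.Agent.P366M.Y.J

namespace ExpH

variable {n : ℕ} {M : Type} [Mfe n M] {g : Fld n M}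

/-- the square of the distance -/
def rr (z : E n) (y : M) : ℝ := P366Y.J.ExpH.rr z (px y)

theorem sm_rr (z : E n) : Smooth (rr z : M → ℝ) := smooth_px (P366Y.J.ExpH.sm_rr z)

theorem s1 {v : Fin n → ℝ} {c : ℝ} (h : ∀ i, |v i| ≤ c) : |∑ i, v i| ≤ n * c :=
  (Finset.abs_sum_le_sum_abs _ _).trans
    ((Finset.sum_le_card_nsmul _ _ c fun i _ => h i).trans_eq (by simp))

theorem m2 {a b c d : ℝ} (h : |a| ≤ c) (k : |b| ≤ d) : |a * b| ≤ c * d :=
  (abs_mul a b).trans_le (mul_le_mul h k (abs_nonneg _) ((abs_nonneg _).trans h))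

theorem unif (hg : Met g) (R : ℝ) : ∃ Q ≥ (1 : ℝ), ∀ (z : E n) (y : M), R0 M ≤ ‖px y‖ →
    ‖px y‖ ≤ R → ‖px y - z‖ ≤ 1 →
    sq g y (D1 (rr z) y) ≤ Q ∧ n * normSq g (hess g (rr z)) y ≤ Q := by
  obtain ⟨B, -, h1⟩ := bdd_ch (F := fun (e : Ch n M) y i j => Stmt.up (rep e g) i j y)
    (fun e he => continuous_pi fun i => continuous_pi fun j => ((hg.rep he).sm_up i j).cont) R 0
  obtain ⟨B', -, h2⟩ := bdd_ch (F := fun (e : Ch n M) y k i j => Stmt.chr (rep e g) k i j y)
    (fun e he => continuous_pi fun k => continuous_pi fun i => continuous_pi fun j =>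
      ((hg.rep he).sm_chr k i j).cont) R 0
  refine ⟨max 1 (max (n * (n * (B * (2 * 1) * (2 * 1)))) (n * (n * (n * (n * (n * (B * B *
    (2 * 1 + n * (B' * (2 * 1))) * (2 * 1 + n * (B' * (2 * 1)))))))))), le_max_left _ _,
    fun z y y0 a b => ?_⟩
  have u : ∀ i j, |up g i j y| ≤ B := fun i j => by
    rw [← up_pt]
    exact (norm_le_pi_norm _ j).trans ((norm_le_pi_norm _ i).trans
      (h1 y a _ (mem_closedBall_self le_rfl)))
  have c : ∀ k i j, |chr g k i j y| ≤ B' := fun k i j => (norm_le_pi_norm _ j).trans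
    ((norm_le_pi_norm _ i).trans ((norm_le_pi_norm _ k).trans
      (h2 y a _ (mem_closedBall_self le_rfl))))
  have d : ∀ i, |pd i (rr z) y| ≤ 2 * 1 := fun i => by
    rw [show pd i (rr z) y = _ from pd_px y0 i _, P366Y.J.ExpH.d1_rr]
    exact m2 abs_two.le ((PiLp.norm_apply_le _ i).trans b)
  have h : ∀ i j, |hess g (rr z) y i j| ≤ 2 * 1 + n * (B' * (2 * 1)) := fun i j => by
    refine (abs_sub _ _).trans (add_le_add ?_ (s1 fun k => m2 (c k i j) (d k)))
    rw [show pd2 i j (rr z) y = _ from pd2_px y0 i j _, P366Y.J.ExpH.d1_rr, P366Z.pd_const_mul,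
      P366Z.pd_translate (f := fun y => y j), P366Z.pd_coord]
    split_ifs <;> simp
  exact ⟨le_max_of_le_right (le_max_of_le_left ((le_abs_self _).trans
    (s1 fun i => s1 fun j => m2 (m2 (u i j) (d i)) (d j)))), le_max_of_le_right (le_max_of_le_right
      (mul_le_mul_of_nonneg_left ((le_abs_self _).trans (s1 fun i => s1 fun j => s1 fun k =>
        s1 fun l => m2 (m2 (m2 (u i k) (u j l)) (h i j)) (h k l))) (Nat.cast_nonneg n)))⟩

/-- the barrier -/
theorem bar (hT : TOUCH) (hA : ALG) (hH : HCP) (hg : Met g) {Q s k κ : ℝ} {u : M → ℝ} {z : M}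
    (hQ : 1 ≤ Q) (hu : Smooth u) (hs : 0 < s) (hk : 0 ≤ k) (hκ : (k ^ 2 + k) * Q < κ)
    (h : ∀ y, ‖px y - px z‖ ≤ 1 / 2 → (sq g y (D1 (rr (px z)) y) ≤ Q ∧ n * normSq g (hess g (rr (px z))) y ≤ Q) ∧
      u y ≤ s ∧ (0 < u y → ∃ c p, 0 ≤ c ∧ c * sq g y p ≤ 1 ∧
        κ * u y ≤ pr2 (am g y c p) (hess g u y))) : u z ≤ s * Real.exp (-(k / 4)) := by
  obtain ⟨b, hb⟩ : ∃ b : ℝ → ℝ, b = fun t => s * Real.exp (k * (t - 1 / 4)) := ⟨_, rfl⟩
  have b0 : ∀ t, 0 < b t := fun t => by rw [hb]; positivity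
  have b1 : ContDiff ℝ ∞ b := by rw [hb]; fun_prop
  have b2 : deriv b = fun t => k * b t := funext fun t => by
    rw [hb]
    refine (((((hasDerivAt_id t).sub_const _).const_mul k).exp).const_mul s).deriv.trans ?_
    simp only [id]
    ring
  have b3 : ∀ t, deriv (deriv b) t = k ^ 2 * b t := fun t => by
    rw [b2, deriv_const_mul_field', b2]
    ring
  have w : Smooth fun y : M => b (rr (px z) y) := b1.compM (sm_rr (px z))
  have cn : Continuous fun y : M => ‖px y - px z‖ := (cont_px.sub continuous_const).norm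
  have z0 : z ∈ {y : M | ‖px y - px z‖ ≤ 1 / 2} := by simp
  obtain ⟨x, hx, hm⟩ := ((isCompact_px M (‖px z‖ + 1 / 2)).of_isClosed_subset
    (isClosed_le cn continuous_const) fun y (hy : ‖px y - px z‖ ≤ 1 / 2) =>
      show ‖px y‖ ≤ ‖px z‖ + 1 / 2 by linarith [norm_sub_norm_le (px y) (px z)]).exists_isMinOn ⟨z, z0⟩
      (w.cont.sub hu.cont).continuousOn
  have k0 : b (rr (px z) x) - u x ≤ b (rr (px z) z) - u z := hm z0
  have k1 : b (rr (px z) z) = s * Real.exp (-(k / 4)) := by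
    rw [hb, rr, P366Y.J.ExpH.rr, sub_self, norm_zero]
    exact congrArg (s * Real.exp ·) (by ring)
  by_contra c
  have k2 : b (rr (px z) x) < u x := by linarith
  replace hx : ‖px x - px z‖ ≤ 1 / 2 := hx
  obtain ⟨⟨q1, q2⟩, h2, h3⟩ := h x hx
  obtain ⟨e, p, e0, e1, e2⟩ := h3 ((b0 _).trans k2)
  have k3 : ‖px x - px z‖ < 1 / 2 := hx.lt_of_ne fun e => by
    rw [hb, rr, P366Y.J.ExpH.rr, e] at k2
    norm_num at k2
    linarith
  obtain ⟨-, a1, a2, -, -, a3⟩ := hA n M g x e p hg e0 e1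
  obtain ⟨t1, t2⟩ := hT n M _ u x _ (w.c2 x) (hu.c2 x) (hm.isLocalMin
    (mem_of_superset ((isOpen_lt cn continuous_const).mem_nhds k3) fun y
      (hy : ‖px y - px z‖ < 1 / 2) => hy.le)) a1
  have k4 := t2 g
  have k5 : pr2 (am g x e p) (hess g (fun y => b (rr (px z) y)) x) = b (rr (px z) x) *
      (k ^ 2 * ∑ i, ∑ j, am g x e p i j * D1 (rr (px z)) x i * D1 (rr (px z)) x j +
        k * pr2 (am g x e p) (hess g (rr (px z)) x)) := by
    simp only [pr2, (hH n M g b _ x b1 (sm_rr (px z))).2.1, b3]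
    simp only [b2, Finset.mul_sum, ← Finset.sum_add_distrib]
    exact Finset.sum_congr rfl fun i _ => Finset.sum_congr rfl fun j _ => by ring
  have k6 : pr2 (am g x e p) (hess g (rr (px z)) x) ≤ Q := le_of_sq_le_sq
    (((a3 _ (hg.hess_sy ((sm_rr (px z)).c2 x))).1.trans q2).trans (by nlinarith)) (by linarith)
  have k7 := mul_le_mul_of_nonneg_left (add_le_add (mul_le_mul_of_nonneg_left
    ((a2 (D1 (rr (px z)) x)).2.trans q1) (sq_nonneg k)) (mul_le_mul_of_nonneg_left k6 hk)) (b0 (rr (px z) x)).le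
  have k8 : 0 ≤ (k ^ 2 + k) * Q := by positivity
  nlinarith [b0 (rr (px z) x)]

end ExpH

open ExpH

/-- **row JEXP** -/
theorem jexp_of (hG : GA) (hT : TOUCH) (hA : ALG) (hH : HCP) : JEXP := by
  obtain ⟨C, -, hG⟩ := hG
  refine ⟨C, fun n M _ X P hc => ?_⟩
  have hX := hc.hX
  have hg := mg hX
  obtain ⟨-, L1, τ0, -, F1, -, p0, p1, -⟩ := hc.hP.pos
  obtain ⟨Q, Q1, hQ⟩ := ExpH.unif hg (X.R + 7)
  obtain ⟨c, c0, c1, c2⟩ : ∃ c : ℝ, 0 < c ∧ c ≤ 1 ∧ c * Q = P.p₁ / 16 :=
    ⟨P.p₁ / 16 / Q, by positivity, (div_le_one (by linarith)).2 (by linarith), by field_simp⟩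
  refine ⟨c / 4, by positivity, fun s l A ψ f s0 s1 hψ hf ho x x1 x2 => ?_⟩
  have r0 := Real.sqrt_pos.2 s0
  have key : ∀ e : ℝ, e = 1 ∨ e = -1 → e * f x ≤ s * Real.exp (-(c / √s / 4)) := fun e he => by
    refine bar (u := fun y => e * f y) (κ := P.p₁ / 4 / s) hT hA hH hg Q1
      (CD.mul cd_const hf.sm) s0 (by positivity) ?_ fun y hy => ?_
    · have a : c / √s ≤ c / s := div_le_div_of_nonneg_left c0.le s0
        (Real.le_sqrt_of_sq_le (by nlinarith))
      have a' : c ^ 2 / s ≤ c / s := div_le_div_of_nonneg_right (by nlinarith) s0.le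
      rw [div_pow, Real.sq_sqrt s0.le]
      refine (mul_le_mul_of_nonneg_right (add_le_add a' a) (by linarith)).trans_lt ?_
      rw [← add_div, div_mul_eq_mul_div]
      exact div_lt_div_of_pos_right (by linarith) s0
    have y1 := abs_le.1 ((abs_norm_sub_norm_le (px y) (px x)).trans hy)
    have y2 := abs_le.1 (ho y (by linarith))
    have y3 : e * f y ≤ s := by rcases he with rfl | rfl <;> linarith
    refine ⟨hQ (px x) y (by linarith [hX.RM]) (by linarith) (by linarith), y3, fun u0 => ?_⟩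
    have t0 := (hA n M X.g y 0 (D1 f y) hg le_rfl (by simp)).1
    have G := hG P hc.hP hc.big _ (hψ.bd y) _ t0
    have r7 := rc_one (r := X.R + 7) (x := y) (by linarith [hX.R1]) (by linarith)
    have r3 := rc_mem (X.R + 3) y
    refine ⟨P.Gs (ψ y) (sq X.g y (D1 f y)), D1 f y, G.Gs0, ?_, ?_⟩
    · have := (one_div_pos.2 (by positivity)).trans_le G.io1
      rw [io] at this
      linarith
    have e1 := geo hX hf (x := y) (by linarith)
    have e2 : pr2 (ag X P ψ y (D1 f y)) (X.K y) = 0 := by simp [pr2, hX.K0 y (by linarith)]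
    rw [e2, ag_eq, r7, one_mul, zero_add, cap, (hX.pout y (by linarith)).1,
      hc.hP.Tl _ (abs_le.2 ⟨by linarith, by linarith⟩)] at e1
    have e3 : ∀ a : Mx n, pr2 a (hess X.g (fun y => e * f y) y) = e * pr2 a (hess X.g f y) :=
      fun a => by
        simp only [pr2, hess_const_mul, Finset.mul_sum, mul_left_comm _ e]
    have e4 : e * Real.arctan (f y / s) = Real.arctan (e * f y / s) := by
      rcases he with rfl | rfl
      · rw [one_mul, one_mul]
      · rw [neg_one_mul, neg_one_mul, neg_div, Real.arctan_neg]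
    have e5 := atan (div_pos u0 s0).le ((div_le_one s0).2 y3)
    have e6 : 1 / 2 ≤ P.om (ψ y) (ip X.g f f y) :=
      le_of_sq_le_sq (le_trans (by linarith) G.om1) G.om0.le
    have e7 : P.p₁ ≤ rc (X.R + 3) y * X.p₀ + (1 - rc (X.R + 3) y) * P.p₁ := by
      nlinarith [hc.fo.1]
    have e8 := mul_le_mul e7 e5 (by positivity) (p0.le.trans e7)
    have e9 := mul_le_mul e6 (e8.trans (le_add_of_nonneg_left (mul_pos τ0 u0).le)) (by positivity)
      G.om0.le
    rw [e3, e1]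
    rw [← e4] at e9
    refine le_trans (le_of_eq ?_) (e9.trans_eq (by ring))
    ring
  rw [div_right_comm] at key
  exact abs_le.2 ⟨by linarith [key (-1) (Or.inr rfl)], by linarith [key 1 (Or.inl rfl)]⟩

end Vale.Agent.P366M.Y.J
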