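import Vale.Agent.P366Y.J.HolA
import Vale.Agent.P366Y.J.D2
import Vale.Agent.P366Q.T.Ho

/-!
# P366Q, block J: local estimates of the first and second derivatives
-/

open MeasureTheory Metric Filter Topology Set
open scoped ContDiff ENNReal
open Vale.Agent.P366.Stmt Vale.Agent.P366Z Vale.Agent.P366Y.J

noncomputable section

namespace Vale.Agent.P366Y.JL

open Cac

theorem core (h : H.HOL) {n : ℕ} (hn : 2 ≤ n) {Λ e D : ℝ} (Λ0 : 0 < Λ) (e0 : 0 < e) (D0 : 0 ≤ D) :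
    ∃ θ ∈ Ioo (0 : ℝ) 1, ∃ K > (0 : ℝ), ∀ A ≥ (1 : ℝ), ∀ (f : E n → ℝ) (V : Fin n → E n → ℝ)
      (a : E n → Mx n) (ε : E n → ℝ) (x₀ : E n), ContDiff ℝ ∞ f → (∀ i, ContDiff ℝ ∞ (V i)) →
      (∀ x ∈ ball x₀ 2, El Λ (a x) ∧ e ≤ ε x ∧ ε x ≤ D ∧ (∀ j, |pd j f x| ≤ D) ∧ |pr2 (a x) (D2 f x)| ≤ D ∧
        ∀ i k, |pd k (V i) x - ε x * ∑ j, a x i j * pd k (pd j f) x| ≤ D * A) →
      ∀ x ∈ ball x₀ 1, ∀ y ∈ ball x₀ 1, ‖D1 f x - D1 f y‖ ≤ K * (A * ‖x - y‖) ^ θ := by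
  obtain ⟨l, hl⟩ : ∃ l : ℝ, l = e / (2 * Λ) := ⟨_, rfl⟩
  obtain ⟨D', hD'⟩ : ∃ D' : ℝ, D' = D * D + n * D := ⟨_, rfl⟩
  have l0 : 0 < l := by rw [hl]; positivity
  have D1' : 0 ≤ D' := by rw [hD']; positivity
  obtain ⟨L, hL⟩ : ∃ L : ℝ, L = (n * D + D') ^ 2 / (4 * l) + D + D * (n * Λ) + D' := ⟨_, rfl⟩
  have p1 : 0 ≤ (n * D + D') ^ 2 / (4 * l) := by positivity
  have p2 : 0 ≤ D * (n * Λ) := by positivity
  obtain ⟨α, α0, -, K, K0, hK⟩ := h n l L hn l0 (by linarith)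
  refine ⟨min α (1 / 2), ⟨by positivity, (min_le_right _ _).trans_lt (by norm_num)⟩, K + 2 * D,
    by positivity, fun A A1 f V a ε x₀ hf hV hb x hx y hy => ?_⟩
  have A0 : 0 < A := by linarith
  have b0 : 0 ≤ A * ‖x - y‖ := by positivity
  have θ0 : 0 ≤ min α (1 / 2) := by positivity
  have q0 := Real.rpow_nonneg b0 (min α (1 / 2))
  refine (pi_norm_le_iff_of_nonneg (by positivity)).2 fun k => ?_
  show |pd k f x - pd k f y| ≤ _
  rcases le_or_gt 1 (A * ‖x - y‖) with far | near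
  · have := Real.one_le_rpow far θ0
    have h1 := abs_le.1 ((hb x (ball_subset_ball one_le_two hx)).2.2.2.1 k)
    have h2 := abs_le.1 ((hb y (ball_subset_ball one_le_two hy)).2.2.2.1 k)
    rw [abs_le]
    constructor <;> nlinarith
  have sp : ∀ {u : E n → ℝ}, ContDiff ℝ ∞ u → ∀ i, ContDiff ℝ ∞ (pd i u) := fun hu i =>
    contDiff_pd hu (by norm_cast) i
  have df : ∀ {u : E n → ℝ}, ContDiff ℝ ∞ u → ∀ z, DifferentiableAt ℝ u z := fun hu z =>
    hu.differentiable (by simp) z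
  have cm : ∀ {u : E n → ℝ}, ContDiff ℝ ∞ u → ∀ i j z, pd i (pd j u) z = pd j (pd i u) z :=
    fun hu i j z => pd_comm (hu.contDiffAt.of_le (by norm_cast)) i j
  have sd : ContDiff ℝ ∞ fun z => ∑ i, pd i (V i) z := ContDiff.sum fun i _ => sp (hV i) i
  have si : ∀ i, ContDiff ℝ ∞ fun z => if i = k then ∑ i, pd i (V i) z else 0 := fun i => by
    split_ifs
    exacts [sd, contDiff_const]
  have key := hK (pd k f) (fun i z => pd k (V i) z - if i = k then ∑ i, pd i (V i) z else 0) y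
    (1 / A) ((sp hf k).of_le (by norm_cast))
    (fun i => ((sp (hV i) k).sub (si i)).of_le (by norm_cast)) (by positivity) (fun z hz => ?_) x
    (by rw [mem_ball, dist_eq_norm, lt_div_iff₀ A0]; linarith)
  · have e1 : ‖x - y‖ / (1 / A) = A * ‖x - y‖ := by field_simp
    rw [e1] at key
    have := Real.rpow_le_rpow_of_exponent_ge' b0 near.le θ0 (min_le_left α (1 / 2))
    nlinarith
  obtain ⟨el, ε1, ε2, g1, g2, er⟩ := hb z (by
    have := dist_triangle z y x₀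
    have := (div_le_one A0).2 A1
    rw [mem_ball] at hz hy ⊢
    linarith)
  obtain ⟨P, hP⟩ : ∃ P, P = ‖fderiv ℝ (pd k f) z‖ := ⟨_, rfl⟩
  have P0 : 0 ≤ P := hP ▸ norm_nonneg _
  have P1 : ∀ i, |pd i (pd k f) z| ≤ P := fun i => hP ▸ abs_pd_le (df (sp hf k) z) i
  have P2 : P ^ 2 ≤ Λ * ∑ i, (∑ j, a z i j * pd j (pd k f) z) * pd i (pd k f) z := by
    have := quad el (D1 (pd k f) z)
    rwa [Real.sq_sqrt (e2_nonneg _), e2, show ∑ i, D1 (pd k f) z i ^ 2 = P ^ 2 from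
      hP ▸ (norm_fderiv_sq (df (sp hf k) z)).symm] at this
  have dv : |∑ i, pd i (V i) z| ≤ D' * A := by
    have e1 : ∑ i, pd i (V i) z = ε z * pr2 (a z) (D2 f z) +
        ∑ i, (pd i (V i) z - ε z * ∑ j, a z i j * pd i (pd j f) z) * 1 := by
      simp only [pr2, D2, mul_one, Finset.sum_sub_distrib, ← Finset.mul_sum]
      ring
    have e2 := sum1 (p := fun i => pd i (V i) z - ε z * ∑ j, a z i j * pd i (pd j f) z)
      (q := fun _ => 1) (B := 1) (fun i => er i i) fun _ => by simp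
    have e3 : |ε z * pr2 (a z) (D2 f z)| ≤ D * D := by
      rw [abs_mul, abs_of_nonneg (by linarith)]
      exact mul_le_mul ε2 g2 (abs_nonneg _) D0
    have e4 := mul_le_mul_of_nonneg_left A1 (mul_nonneg D0 D0)
    rw [e1, hD']
    refine (abs_add_le _ _).trans ?_
    linarith
  have er' : ∀ i, |pd k (V i) z - ε z * ∑ j, a z i j * pd j (pd k f) z| ≤ D * A := fun i => by
    simpa only [cm hf k] using er i k
  have r1 : 1 / (1 / A) = A := one_div_one_div A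
  have r2 : L / (1 / A) ^ 2 = L * A ^ 2 := by field_simp
  rw [← hP, r1, r2]
  refine ⟨by linarith [g1 k], ?_, fun i => ?_, ?_⟩
  · have e1 : ∑ i, (pd k (V i) z - if i = k then ∑ i, pd i (V i) z else 0) * pd i (pd k f) z =
        ε z * ∑ i, (∑ j, a z i j * pd j (pd k f) z) * pd i (pd k f) z +
          ∑ i, (pd k (V i) z - ε z * ∑ j, a z i j * pd j (pd k f) z) * pd i (pd k f) z -
          (∑ i, pd i (V i) z) * pd k (pd k f) z := by
      simp only [sub_mul, Finset.sum_sub_distrib, ite_mul, zero_mul, Finset.sum_ite_eq',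
        Finset.mem_univ, if_true, mul_assoc, ← Finset.mul_sum]
      ring
    have e2 := abs_le.1 (sum1 er' P1)
    have e3 : |(∑ i, pd i (V i) z) * pd k (pd k f) z| ≤ D' * A * P := by
      rw [abs_mul]
      exact mul_le_mul dv (P1 k) (abs_nonneg _) (by positivity)
    obtain ⟨S, hS⟩ : ∃ S, S = ∑ i, (∑ j, a z i j * pd j (pd k f) z) * pd i (pd k f) z := ⟨_, rfl⟩
    rw [← hS] at P2
    have S0 : 0 ≤ S := nonneg_of_mul_nonneg_right ((sq_nonneg P).trans P2) Λ0 |> fun h => h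
    have e4 : 2 * l * P ^ 2 ≤ ε z * S := by
      have t1 := mul_le_mul_of_nonneg_left P2 (show 0 ≤ 2 * l by positivity)
      have t2 : 2 * l * (Λ * S) = e * S := by rw [hl]; field_simp
      have t3 := mul_le_mul_of_nonneg_right ε1 S0
      linarith
    have e5 : (n * D + D') * A * P ≤ l * P ^ 2 + (n * D + D') ^ 2 / (4 * l) * A ^ 2 := by
      have t1 : l * P ^ 2 + (n * D + D') ^ 2 / (4 * l) * A ^ 2 - (n * D + D') * A * P =
          (2 * l * P - (n * D + D') * A) ^ 2 / (4 * l) := by field_simp; ring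
      have t2 : 0 ≤ (2 * l * P - (n * D + D') * A) ^ 2 / (4 * l) := by positivity
      linarith
    have e6 : (n * D + D') ^ 2 / (4 * l) * A ^ 2 ≤ L * A ^ 2 :=
      mul_le_mul_of_nonneg_right (by linarith) (sq_nonneg A)
    rw [e1, ← hS]
    linarith [(abs_le.1 e3).2]
  · have e1 : |ε z * ∑ j, a z i j * pd j (pd k f) z| ≤ D * (n * (Λ * P)) := by
      rw [abs_mul, abs_of_nonneg (by linarith)]
      exact mul_le_mul ε2 (sum1 (el.2.1 i) P1) (abs_nonneg _) D0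
    have e2 : |if i = k then ∑ i, pd i (V i) z else 0| ≤ D' * A := by
      split_ifs
      exacts [dv, by rw [abs_zero]; positivity]
    have e3 : D * (n * Λ) * P ≤ L * P := mul_le_mul_of_nonneg_right (by linarith) P0
    have e4 : (D + D') * A ≤ L * A := mul_le_mul_of_nonneg_right (by linarith) A0.le
    have e5 := abs_le.1 (er' i)
    rw [abs_le] at e1 e2 ⊢
    constructor <;> linarith [e1.1, e1.2, e2.1, e2.2, e5.1, e5.2]
  · have e1 : ∀ i, pd i (fun z => pd k (V i) z - if i = k then ∑ i, pd i (V i) z else 0) z =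
        pd k (pd i (V i)) z - if i = k then ∑ j, pd k (pd j (V j)) z else 0 := fun i => by
      rw [pd_sub (df (sp (hV i) k) z) (df (si i) z), cm (hV i) i k]
      congr 1
      split_ifs with e
      · rw [e, pd_sum _ fun j _ => df (sp (hV j) j) z]
      · exact pd_const 0 i z
    simp only [e1, Finset.sum_sub_distrib, Finset.sum_ite_eq', Finset.mem_univ, if_true, sub_self,
      abs_zero]
    have : 0 ≤ L := by linarith
    positivity

theorem pd_lip {n : ℕ} {h : E n → ℝ} (hd : Differentiable ℝ h) {C r : ℝ} {x : E n} (C0 : 0 ≤ C)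
    (hl : ∀ y ∈ ball x r, ∀ z ∈ ball x r, |h y - h z| ≤ C * ‖y - z‖) (k : Fin n) :
    ∀ y ∈ ball x r, |pd k h y| ≤ C := fun y hy =>
  (abs_pd_le (hd y) k).trans ((hd y).hasFDerivAt.le_of_lip' C0
    (mem_of_superset (isOpen_ball.mem_nhds hy) fun z hz => hl z hz y hy))

theorem abs2 (n : ℕ) {Λ θ e : ℝ} (K : ℝ) (Λ0 : 0 < Λ) (θ0 : 0 < θ) (θ1 : θ ≤ 1) (e0 : 0 < e) :
    ∃ K₂ > (0 : ℝ), ∀ (f : E n → ℝ) (a : E n → Mx n) (A S : ℝ) (x₀ : E n), 1 ≤ A → 0 ≤ S →
      Smooth f → (∀ i j, Smooth fun x => a x i j) → (∀ x ∈ ball x₀ 1, ‖D2 f x‖ ≤ S ∧ El Λ (a x) ∧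
        ∀ y ∈ ball x₀ 1, ‖D1 f x - D1 f y‖ ≤ K * (A * ‖x - y‖) ^ θ ∧
        ‖a x - a y‖ ≤ Λ * (A * ‖x - y‖ + ‖D1 f x - D1 f y‖) ∧
        |pr2 (a x) (D2 f x) - pr2 (a y) (D2 f y)| ≤ Λ * (A ^ 2 * ‖x - y‖ + ‖D1 f x - D1 f y‖)) →
      ‖D2 f x₀‖ ≤ e * S + K₂ * A := by
  have n0 : (0 : ℝ) ≤ n := Nat.cast_nonneg n
  have K0 := abs_nonneg K
  obtain ⟨Q, hQ⟩ : ∃ Q, Q = Λ * (1 + n + n ^ 2 + n ^ 3) + Λ * (2 + |K|) + |K| := ⟨_, rfl⟩
  have q1 : 0 ≤ Λ * (1 + n + n ^ 2 + n ^ 3) := by positivity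
  have q2 : 0 ≤ Λ * |K| := by positivity
  obtain ⟨K', K'0, hT⟩ := H.tl n Λ⁻¹ Q θ e (inv_pos.2 Λ0) (by rw [hQ]; positivity) θ0 θ1 e0
  refine ⟨K', K'0, fun f a A S x A1 S0 hf ha hh => ?_⟩
  have A0 : 0 < A := by linarith
  have s1 := fun y hy => (hh y hy).1
  have hE := fun y hy => (hh y hy).2.1
  have hH := fun y hy z hz => ((hh y hy).2.2 z hz).1
  have hL := fun y hy z hz => ((hh y hy).2.2 z hz).2.1
  have hR := fun y hy z hz => ((hh y hy).2.2 z hz).2.2
  have sub : ball x A⁻¹ ⊆ ball x 1 := ball_subset_ball (inv_le_one_of_one_le₀ A1)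
  have f2 : ContDiff ℝ 2 f := hf.two
  have sp : ∀ {v : E n → ℝ}, Smooth v → ∀ i, Smooth (pd i v) := fun hv i => hv.pd i
  have df : ∀ {v : E n → ℝ}, Smooth v → Differentiable ℝ v := fun hv => hv.differentiable (by simp)
  have c2 : ∀ {v : E n → ℝ}, Smooth v → ∀ x, ContDiffAt ℝ 2 v x := fun hv x => hv.c2 x
  have lp : ∀ y ∈ ball x 1, ∀ z ∈ ball x 1, ‖D1 f y - D1 f z‖ ≤ n * S * ‖y - z‖ :=
    fun y hy z hz => P366M.lip_of_D2 (convex_ball x 1) (fun y _ => c2 hf y) s1 hy hz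
  have da : ∀ i j k, ∀ y ∈ ball x 1, |pd k (fun y => a y i j) y| ≤ Λ * (A + n * S) :=
    fun i j k => pd_lip (df (ha i j)) (by positivity) (fun y hy z hz =>
      ((D2H.ent (a y - a z) i j).trans (hL y hy z hz)).trans
      (by have := mul_le_mul_of_nonneg_left (lp y hy z hz) Λ0.le; linarith)) k
  have d2 : ∀ i j, Smooth fun y => D2 f y i j := fun i j => sp (sp hf j) i
  have dh : Differentiable ℝ fun y => pr2 (a y) (D2 f y) := fun y =>
    DifferentiableAt.fun_sum fun i _ => DifferentiableAt.fun_sum fun j _ =>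
      (df (ha i j) y).fun_mul (df (d2 i j) y)
  have db : ∀ k, ∀ y ∈ ball x 1,
      |pd k (fun y => pr2 (a y) (D2 f y)) y| ≤ Λ * (A ^ 2 + n * S) := fun k =>
    pd_lip dh (by positivity) (fun y hy z hz => (hR y hy z hz).trans
      (by have := mul_le_mul_of_nonneg_left (lp y hy z hz) Λ0.le; linarith)) k
  have eq : ∀ k x, ∑ i, ∑ j, a x i j * pd i (pd j (pd k f)) x =
      pd k (fun y => pr2 (a y) (D2 f y)) x - ∑ i, ∑ j, pd k (fun y => a y i j) x * D2 f x i j := by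
    intro k x
    unfold pr2
    rw [pd_sum _ fun i _ => DifferentiableAt.fun_sum fun j _ =>
      (df (ha i j) x).fun_mul (df (d2 i j) x), ← Finset.sum_sub_distrib]
    refine Finset.sum_congr rfl fun i _ => ?_
    rw [pd_sum _ fun j _ => (df (ha i j) x).fun_mul (df (d2 i j) x), ← Finset.sum_sub_distrib]
    refine Finset.sum_congr rfl fun j _ => ?_
    rw [pd_mul (df (ha i j) x) (df (d2 i j) x), add_sub_cancel_left]
    have e1 : pd j (pd k f) = pd k (pd j f) := funext fun y => pd_comm (c2 hf y) j k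
    rw [e1, pd_comm (c2 (sp hf j) x) i k]
    rfl
  have key : ∀ k, ‖fderiv ℝ (pd k f) x‖ ≤ e * S + K' / A⁻¹ := fun k => by
    refine hT (pd k f) (fun i j y => a y i j) x A⁻¹ S (sp hf k).two
      (inv_pos.2 A0) S0 fun y hy => ⟨(hE y (sub hy)).1, fun ξ => ?_, fun i j => ?_, ?_, fun z hz => ?_⟩
    · rw [inv_mul_le_iff₀ Λ0]; exact (hE y (sub hy)).2.2 ξ
    · refine ((hE y (sub hy)).2.1 i j).trans ?_
      rw [hQ]; linarith
    · rw [eq, inv_pow, one_div, inv_inv]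
      have b1 : |∑ i, ∑ j, pd k (fun y => a y i j) y * D2 f y i j| ≤
          ∑ _i : Fin n, ∑ _j : Fin n, Λ * (A + n * S) * S :=
        (Finset.abs_sum_le_sum_abs _ _).trans (Finset.sum_le_sum fun i _ =>
          (Finset.abs_sum_le_sum_abs _ _).trans (Finset.sum_le_sum fun j _ => by
            rw [abs_mul]
            exact mul_le_mul (da i j k y (sub hy)) ((D2H.ent _ i j).trans (s1 y (sub hy))) (abs_nonneg _)
              (by positivity)))
      simp only [Finset.sum_const, Finset.card_univ, Fintype.card_fin, nsmul_eq_mul] at b1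
      refine (abs_sub _ _).trans ((add_le_add (db k y (sub hy)) b1).trans ?_)
      have b2 : A * S ≤ S ^ 2 + A ^ 2 := by nlinarith [sq_nonneg (S - A)]
      have b3 : S ≤ S ^ 2 + A ^ 2 := by nlinarith
      have b4 : A ^ 2 + n * S + n ^ 2 * (A * S) + n ^ 3 * S ^ 2 ≤ (S ^ 2 + A ^ 2) +
          n * (S ^ 2 + A ^ 2) + n ^ 2 * (S ^ 2 + A ^ 2) + n ^ 3 * (S ^ 2 + A ^ 2) := by
        gcongr <;> nlinarith
      have b5 := mul_le_mul_of_nonneg_left b4 Λ0.le
      have b6 : Λ * (1 + n + n ^ 2 + n ^ 3) * (S ^ 2 + A ^ 2) ≤ Q * (S ^ 2 + A ^ 2) :=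
        mul_le_mul_of_nonneg_right (by rw [hQ]; linarith) (by positivity)
      linarith
    · rw [div_inv_eq_mul, mul_comm _ A]
      have t2 : A * ‖y - z‖ ≤ 2 := by
        have := dist_triangle_right y z x
        rw [dist_eq_norm y z] at this
        have h3 := mul_le_mul_of_nonneg_left (show ‖y - z‖ ≤ 2 * A⁻¹ by linarith [mem_ball.1 hy, mem_ball.1 hz]) A0.le
        rwa [mul_left_comm, mul_inv_cancel₀ A0.ne', mul_one] at h3
      have t3 := D2H.two_rpow (by positivity) t2 θ0 θ1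
      have t0 : 0 ≤ (A * ‖y - z‖) ^ θ := by positivity
      have t4 := (hH y (sub hy) z (sub hz)).trans (mul_le_mul_of_nonneg_right (le_abs_self K) t0)
      refine ⟨fun i j => ((D2H.ent (a y - a z) i j).trans (hL y (sub hy) z (sub hz))).trans ?_, ?_⟩
      · have := mul_le_mul_of_nonneg_left (add_le_add t3 t4) Λ0.le
        have h5 : Λ * (2 + |K|) * (A * ‖y - z‖) ^ θ ≤ Q * (A * ‖y - z‖) ^ θ :=
          mul_le_mul_of_nonneg_right (by rw [hQ]; linarith) t0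
        linarith
      · exact ((norm_le_pi_norm (D1 f y - D1 f z) k).trans t4).trans
          (mul_le_mul_of_nonneg_right (by rw [hQ]; linarith) t0)
  rw [← div_inv_eq_mul K']
  have p0 : 0 ≤ e * S + K' / A⁻¹ := by positivity
  exact (pi_norm_le_iff_of_nonneg p0).2 fun i => (pi_norm_le_iff_of_nonneg p0).2 fun k =>
    (abs_pd_le (df (sp hf k) x) i).trans (key k)

end Vale.Agent.P366Y.JL
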