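import Vale.Agent.P366Q.J.Coef
import Vale.Agent.P366Q.J.Core

/-!
# P366Q, block J: rows JHOL and JD2
-/

open MeasureTheory Metric Filter Topology Set
open scoped ContDiff ENNReal
open Vale.Agent.P366 Vale.Agent.P366.Stmt Vale.Agent.P366Z Vale.Agent.P366Y
open Vale.Agent.P366Y.J (io Ga GA PROF Psd big_mono)
open Vale.Agent.P366Y.JL (Ld)

noncomputable section

namespace Vale.Agent.P366M.Y.J

variable {n : ℕ} {M : Type} [Mfe n M] {X : Dat n M} {P : Pa} {C : ℝ}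

theorem two4 (x : M) : ball (pt x) 2 ⊆ ball (pt x) 4 := ball_subset_ball (by norm_num)

/-- **row JHOL** -/
theorem jhol_of (h1 : GA) (h3 : H.HOL) : JHOL := by
  obtain ⟨C, -, ga⟩ := h1
  refine ⟨C, fun n M _ X P l N cx => ?_⟩
  have hX := cx.hX
  have hG : Gx P C := ga P cx.hP cx.big
  obtain ⟨B, hB⟩ := exists_big M
  have B4 := hB.four
  have ok := fun x : M => lc_ok hX cx.hP 1 (ch_mem x)
  obtain ⟨N', N1, N2⟩ : ∃ N', B * N ≤ N' ∧ 8 * P.F₀ ≤ N' := ⟨_, le_max_left _ _, le_max_right _ _⟩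
  have N0 : 0 ≤ N' := by linarith [cx.hP.pos.2.2.2.2.1]
  obtain ⟨Λ, Λ0, c3⟩ := coef hX cx.hP hG 1 l N'
  have cK := isCompact_Icc.prod (s := Icc P.φ₀ 2) (isCompact_closedBall (0 : Vc n) N')
  choose B₁ B1 b1 using fun i => unifD (R := X.ρ + 4) (G := fun v => v.2 i)
    (F := fun e => (lc X P 1 e).AA P i) cK (fun x q hq => Ld.sm_AA (ok x) (hG.lc (ok x) hq.1 _ _) i)
    (by fun_prop) fun x hx y hy v => (lc_far hX 1 hx hy).AA i v
  obtain ⟨B₂, B2, b2⟩ := unifD (R := X.ρ + 4) (G := fun _ => 0)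
    (F := fun e => (lc X P 1 e).GG P) cK (fun x q hq => Ld.sm_GG (ok x) (hG.lc (ok x) hq.1 _ _))
    contDiff_const fun x hx y hy v => (lc_far hX 1 hx hy).GG v
  have p1 : 0 ≤ (∑ i, B₁ i) * B := mul_nonneg (Finset.sum_nonneg fun i _ => (B1 i).le) hB.pos.le
  have p2 := Real.exp_pos B₂
  obtain ⟨θ, θm, K, K0, hc⟩ := JL.core h3 (show 2 ≤ n by linarith [hX.dim]) Λ0
    (Real.exp_pos (-B₂)) (D := (∑ i, B₁ i) * B + Real.exp B₂ + N' + Λ) (by positivity)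
  refine ⟨θ, θm, K, K0, fun s _ σ hσ A A1 ψ f hψ hf hb x => ?_⟩
  have he := ch_mem x
  have sψ := hψ.sm.lc he
  have sf := hf.sm.lc he
  have sQ : ContDiff ℝ ∞ fun z => (z, loc (ch x) ψ z, P366Y.D1 (loc (ch x) f) z) :=
    contDiff_id.prodMk (ContDiff.prodMk sψ (contDiff_pi.2 fun j => sf.pd j))
  rw [rC_loc hf.sm he]
  refine hc A A1 _ (fun i z => (lc X P 1 (ch x)).AA P i (z, loc (ch x) ψ z, P366Y.D1 (loc (ch x) f) z))
    (fun z => (lc X P 1 (ch x)).aJ P z (loc (ch x) ψ z) (P366Y.D1 (loc (ch x) f) z))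
    (fun z => Real.exp ((lc X P 1 (ch x)).GG P (z, loc (ch x) ψ z, P366Y.D1 (loc (ch x) f) z))) _ sf
    (fun i => contDiff_iff_contDiffAt.2 fun z => ContDiffAt.comp (g := (lc X P 1 (ch x)).AA P i) z
      (Ld.sm_AA (ok x) (hG.lc (ok x) (hψ.bd _) _ _) i) sQ.contDiffAt) fun y hy => ?_
  replace hy := two4 x hy
  have fn : ‖P366Y.D1 (loc (ch x) f) y‖ ≤ N' :=
    (hB.d1_le hf.sm.diff (fun x => (d1_le_fd (hf.sm.diff x)).trans (hb x).2) hy).trans N1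
  have fψ : ‖P366Y.D1 (loc (ch x) ψ) y‖ ≤ B * A :=
    hB.d1_le hψ.sm.diff (fun x => (d1_le_fd (hψ.sm.diff x)).trans (hψ.lip x)) hy
  have mem : (loc (ch x) ψ y, P366Y.D1 (loc (ch x) f) y) ∈
      Icc P.φ₀ 2 ×ˢ closedBall (0 : Vc n) N' := ⟨hψ.bd _, mem_closedBall_zero_iff.2 fn⟩
  obtain ⟨el, bj, -⟩ := c3 s σ hσ x y hy _ mem.1 (loc (ch x) f y) _ ((hb _).1.trans N2) fn
  have gb := abs_le.1 (b2 x (y, _) hy mem).1
  refine ⟨el, Real.exp_le_exp.2 gb.1, ?_, fun j => ?_, ?_, fun i k => ?_⟩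
  · linarith [Real.exp_le_exp.2 gb.2]
  · exact ((norm_le_pi_norm (P366Y.D1 (loc (ch x) f) y) j).trans fn).trans (by linarith)
  · rw [eq_rep hX hf he]
    linarith
  · have A0 : 0 ≤ A := by linarith
    rw [Ld.pd_V (ok x) sψ sf (hG.lc (ok x) (hψ.bd _) _ _)]
    refine ((ContinuousLinearMap.le_opNorm _ _).trans (mul_le_mul ((b1 i x (y, _) hy mem).2.trans
      (Finset.single_le_sum (f := B₁) (fun i _ => (B1 i).le) (Finset.mem_univ i)))
      (show _ ≤ B * A from ?_) (norm_nonneg _) (Finset.sum_nonneg fun i _ => (B1 i).le))).trans ?_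
    · have : 1 ≤ B * A := one_le_mul_of_one_le_of_one_le (by linarith) A1
      exact norm_prod_le_iff.2 ⟨by simpa using this, norm_prod_le_iff.2
        ⟨(norm_le_pi_norm (P366Y.D1 (loc (ch x) ψ) y) k).trans fψ, by rw [norm_zero]; linarith⟩⟩
    · rw [← mul_assoc]
      exact mul_le_mul_of_nonneg_right (by linarith) A0

/-- **row JD2** -/
theorem jd2_of (h1 : GA) : JD2 := by
  obtain ⟨C, -, ga⟩ := h1
  refine ⟨C, fun n M _ X P l N θ K cx hθ => ?_⟩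
  have hX := cx.hX
  have hG : Gx P C := ga P cx.hP cx.big
  obtain ⟨B, hB⟩ := exists_big M
  have B0 := hB.pos
  have ok := fun x : M => lc_ok hX cx.hP 1 (ch_mem x)
  have F0 : 0 < P.F₀ := by linarith [cx.hP.pos.2.2.2.2.1]
  obtain ⟨N', hN⟩ : ∃ N', N' = B * |N| + 8 * P.F₀ := ⟨_, rfl⟩
  have m1 : 0 ≤ B * |N| := by positivity
  have N0 : 0 ≤ N' := by linarith
  obtain ⟨Λ, Λ0, c⟩ := coef hX cx.hP hG 1 l N'
  obtain ⟨Γ, Γ0, hΓ⟩ := gm_bd (M := M) bg_met (flat_bg hX.flat.R)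
  obtain ⟨T, hT⟩ : ∃ T, T = 2 + n * B + 2 * (n * N') := ⟨_, rfl⟩
  have t1 : 0 ≤ n * B := by positivity
  have t2 : 0 ≤ n * N' := by positivity
  have ΛT : Λ ≤ Λ * T := le_mul_of_one_le_right Λ0.le (by linarith)
  obtain ⟨K₂, K0, h⟩ := JL.abs2 n (Λ := Λ * T) (e := 1 / (2 * B)) K (by linarith) hθ.1 hθ.2.le
    (by positivity)
  obtain ⟨c₂, hc⟩ : ∃ c₂, c₂ = n * (Γ * N') := ⟨_, rfl⟩
  have c0 : 0 ≤ c₂ := by rw [hc]; positivity
  refine ⟨2 * (K₂ + c₂ / (2 * B) + c₂), by positivity, fun A A1 s hs ψ f hψ hf hb hH => ?_⟩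
  have A0 : 0 < A := by linarith
  have s0 : 0 < s := lt_of_lt_of_le (by positivity) hs
  obtain ⟨α, -, A₁, hc2⟩ := hf.c2
  have bd : BddAbove (range fun x => ‖D2 f x‖) := ⟨A₁, by rintro _ ⟨x, rfl⟩; exact hc2.2.2.2.bd x⟩
  obtain ⟨S, hS⟩ : ∃ S, S = ⨆ x, ‖D2 f x‖ := ⟨_, rfl⟩
  have s1 : ∀ x, ‖D2 f x‖ ≤ S := fun x => hS ▸ le_ciSup bd x
  have S0 : 0 ≤ S := (norm_nonneg _).trans (s1 (Classical.arbitrary M))
  have d1 := fun x => ((d1_le_fd (hf.sm.diff x)).trans (hb x).2).trans (le_abs_self N)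
  have key : ∀ x, ‖D2 f x‖ ≤ S / 2 + (K₂ + c₂ / (2 * B) + c₂) * A := fun x => by
    have he := ch_mem x
    have sψ := hψ.sm.lc he
    have sf := hf.sm.lc he
    have fn : ∀ y ∈ ball (pt x) 1, ‖P366Y.D1 (loc (ch x) f) y‖ ≤ N' := fun y hy =>
      (hB.d1_le hf.sm.diff d1 (one4 x hy)).trans (by linarith)
    have g1 : ∀ y ∈ ball (pt x) 1, ‖gc (Gm bg (ch x) y) (P366Y.D1 (loc (ch x) f) y)‖ ≤ c₂ :=
      fun y hy => (gc_le _ _).trans (by
        rw [hc]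
        gcongr
        exacts [(hΓ x).1 y (one4 x hy), fn y hy])
    have cc := fun y hy => c s 1 ⟨zero_le_one, le_rfl⟩ x y (one4 x hy) (loc (ch x) ψ y) (hψ.bd _)
      (loc (ch x) f y) _ ((hb _).1.trans (by linarith)) (fn y hy)
    have k := h (loc (ch x) f)
      (fun z => (lc X P 1 (ch x)).aJ P z (loc (ch x) ψ z) (P366Y.D1 (loc (ch x) f) z)) A
      (B * S + c₂) (pt x) A1 (by positivity) sf (fun i j => contDiff_pi.1 (contDiff_pi.1
        (contDiff_iff_contDiffAt.2 fun q => Ld.c_aJ (ok x) contDiff_id sψ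
          (contDiff_pi.2 fun j => sf.pd j) (hG.lc (ok x) (hψ.bd _) _ _)) i) j) fun y hy =>
      ⟨?_, el_mono (cc y hy).1 ΛT, fun z hz => ?_⟩
    · have e1 := d2_loc bg_met he (y := pt x) (hf.sm.c2 _)
      rw [rep_pt] at e1
      have e2 := norm_sub_le (P366Y.D2 (loc (ch x) f) (pt x))
        (gc (Gm bg (ch x) (pt x)) (P366Y.D1 (loc (ch x) f) (pt x)))
      rw [← eq_sub_of_add_eq e1.symm] at e2
      have e3 : 1 / (2 * B) * (B * S + c₂) = S / 2 + c₂ / (2 * B) := by field_simp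
      have e4 := le_mul_of_one_le_right (show 0 ≤ c₂ / (2 * B) + c₂ by positivity) A1
      have e5 := g1 _ (pt_mem x)
      exact e2.trans (by linarith)
    · rw [d2_loc bg_met he (hf.sm.c2 _)]
      exact (norm_add_le _ _).trans (add_le_add ((hB.rep_le (one4 x hy) _).trans
        (mul_le_mul_of_nonneg_left (s1 _) B0.le)) (g1 y hy))
    obtain ⟨a1, a2⟩ := (cc y hy).2.2 z (one4 x hz) (loc (ch x) ψ z) (hψ.bd _) (loc (ch x) f z) _
      ((hb _).1.trans (by linarith)) (fn z hz)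
    have lψ : |loc (ch x) ψ y - loc (ch x) ψ z| ≤ n * (B * A) * ‖y - z‖ := hB.lip hψ.sm.diff
      (fun x => (d1_le_fd (hψ.sm.diff x)).trans (hψ.lip x)) (one4 x hy) (one4 x hz)
    have lf : |loc (ch x) f y - loc (ch x) f z| ≤ n * N' * ‖y - z‖ :=
      lip_of_D1 (convex_ball _ _) (fun y _ => sf.diff y) fn hy hz
    have u0 := norm_nonneg (y - z)
    have u1 := norm_nonneg (P366Y.D1 (loc (ch x) f) y - P366Y.D1 (loc (ch x) f) z)
    have u2 : ‖y - z‖ ≤ A * ‖y - z‖ := le_mul_of_one_le_left u0 A1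
    have u3 : A * ‖y - z‖ ≤ A ^ 2 * ‖y - z‖ := mul_le_mul_of_nonneg_right (by nlinarith) u0
    have u4 := mul_nonneg t1 u1
    have u5 := mul_nonneg t2 u1
    refine ⟨by simpa only [rC_loc hf.sm he] using hH x y hy z hz, a1.trans ?_, ?_⟩
    · rw [mul_assoc Λ, hT]
      refine mul_le_mul_of_nonneg_left ?_ Λ0.le
      nlinarith [mul_nonneg t2 (u0.trans u2)]
    · rw [eq_rep hX hf he, eq_rep hX hf he, mul_assoc Λ, hT]
      refine a2.trans (mul_le_mul_of_nonneg_left ?_ Λ0.le)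
      have t4 : 1 + 1 / |s| ≤ 2 * A ^ 2 := by
        rw [abs_of_pos s0]
        have := (one_div_le s0 (by positivity : 0 < A ^ 2)).2 hs
        nlinarith
      have t5 := mul_le_mul t4 lf (abs_nonneg _) (by positivity)
      have t6 := mul_le_mul_of_nonneg_left u3 t1
      nlinarith
  have s2 : S ≤ S / 2 + (K₂ + c₂ / (2 * B) + c₂) * A := hS.le.trans (ciSup_le key)
  exact fun x => (s1 x).trans (by linarith)

end Vale.Agent.P366M.Y.J
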