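import Vale.Agent.P366Q.J.Asm
import Vale.Agent.P366Q.J.C2
import Vale.Agent.P366Q.J.Ct
import Vale.Agent.P366Q.J.Exp
import Vale.Agent.P366Q.J.Hol
import Vale.Agent.P366Q.J.Inn
import Vale.Agent.P366Q.J.Out
import Vale.Agent.P366Q.J.Sup
import Vale.Agent.P366Y.J.Ga
import Vale.Agent.P366Y.J.Prof
import Vale.Agent.P366Y.H.All

/-!
# P366Q, block J: the output from the elliptic tools
-/

open Vale.Agent.P366Y.J (ga prof)

namespace Vale.Agent.P366M.Y.J

theorem jsup : JSUP := jsup_of touch alg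

theorem jall2_of' (hI : INTP) (hU : USCH) (hQ : QE) (hR : REGQ) : JALL2 :=
  jall2_of jsup (jgrad_of ga jsup) (jinn_of ga prof touch alg hcp jsup)
    (jout_of ga prof touch alg hcp jsup) (jhol_of ga P366Z.H.hol) (jc2_of ga hU) (jex_of ga hQ hR)
    (jct_of ga touch hI) (jd2_of ga) (jexp_of ga touch alg hcp)

end Vale.Agent.P366M.Y.J
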