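import Vale.Agent.P366Q.J.Loc
import Vale.Agent.P366Y.J.Coef2

/-!
# P366Q, block J: the coefficients of the equation of the gauge
-/

open MeasureTheory Metric Filter Topology Set
open scoped ContDiff ENNReal
open Vale.Agent.P366 Vale.Agent.P366.Stmt Vale.Agent.P366Z Vale.Agent.P366Y
open Vale.Agent.P366Y.J (io Ga GA PROF Psd big_mono)
open Vale.Agent.P366Y.JL (Ld)

noncomputable section

namespace Vale.Agent.P366M.Y.J

variable {n : ℕ} {M : Type} [Mfe n M] {X : Dat n M} {P : Pa} {C : ℝ}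

/-- the facts on the gauge functions -/
def Gx (P : Pa) (C : ℝ) : Prop := ∀ y ∈ Icc P.φ₀ 2, ∀ t ≥ (0 : ℝ), Ga P C y t

theorem Gx.lc (hG : Gx P C) {Y : Ld n} (hY : Y.Ok) {t : ℝ} (ht : t ∈ Icc P.φ₀ 2) (y : E n)
    (p : Vc n) : Ga P C t (P366Y.sq Y.g y p) := hG t ht _ (hY.mg.up_nonneg y p)

theorem sq_cf (hX : X.Ok) (x : M) (ξ : Vc n) :
    sq X.g x ξ = X.U x ^ (-(2 * bb n)) * sq X.g₀ x ξ := by
  simp only [sq, Dat.g, hX.met.up_cf (U0 hX x), Finset.mul_sum, mul_assoc]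

theorem far_a (hX : X.Ok) (ψ : M → ℝ) {x : M} (p : Vc n) (hx : X.ρ ≤ ‖px x‖) :
    aJ X P ψ x p = eu n x := by
  funext i j
  have h1 : rc (X.R + 7) x = 0 := rc_zero (by linarith [hX.R1]) (by linarith [hX.Rρ])
  simp only [aJ, ag, h1, zero_mul, sub_zero, U_up hX, hX.flat.up_eq hx, eu]

theorem form (hX : X.Ok) (hP : P.Ok) {ψ : M → ℝ} {x : M} {p : Vc n}
    (hG : Ga P C (ψ x) (sq X.g x p)) : Psd (aJ X P ψ x p) ∧ ∀ ξ : Vc n,
      sq X.g₀ x ξ ≤ (1 + 4 * P.L * sq X.g x p) * ∑ i, ∑ j, aJ X P ψ x p i j * ξ i * ξ j ∧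
      ∑ i, ∑ j, aJ X P ψ x p i j * ξ i * ξ j ≤ sq X.g₀ x ξ := by
  have t0 : 0 ≤ sq X.g x p := (mg hX).up_nonneg x p
  have L0 : 0 ≤ P.L := zero_le_one.trans hP.pos.2.1
  have d0 : 0 < 1 + 4 * P.L * sq X.g x p := by positivity
  have h1 := hG.io1
  have h2 : rc (X.R + 7) x * P.Gs (ψ x) (sq X.g x p) * sq X.g x p ≤
      sq X.g x p * P.Gs (ψ x) (sq X.g x p) := by
    rw [mul_assoc, mul_comm (sq X.g x p)]
    exact mul_le_of_le_one_left (mul_nonneg hG.Gs0 t0) (rc_mem _ x).2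
  unfold io at h1
  have h3 := one_div_pos.2 d0
  obtain ⟨-, a1, a2, -⟩ := alg n M X.g x (rc (X.R + 7) x * P.Gs (ψ x) (sq X.g x p)) p (mg hX)
    (mul_nonneg (rc_mem _ x).1 hG.Gs0) (by linarith)
  rw [← ag_eq] at a1 a2
  have u0 := Real.rpow_pos_of_pos (U0 hX x) (2 * bb n)
  have e : ∀ ξ : Vc n, ∑ i, ∑ j, aJ X P ψ x p i j * ξ i * ξ j =
      X.U x ^ (2 * bb n) * ∑ i, ∑ j, ag X P ψ x p i j * ξ i * ξ j := fun ξ => by
    simp only [aJ, Finset.mul_sum, mul_assoc]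
  have e' : ∀ ξ : Vc n, sq X.g₀ x ξ = X.U x ^ (2 * bb n) * sq X.g x ξ := fun ξ => by
    rw [sq_cf hX, ← mul_assoc, U_mul hX, one_mul]
  refine ⟨⟨fun i j => by simp only [aJ, a1.1 i j], fun ξ => ?_⟩, fun ξ => ⟨?_, ?_⟩⟩
  · rw [e]
    exact mul_nonneg u0.le (a1.2 ξ)
  · rw [e, e', mul_left_comm]
    refine mul_le_mul_of_nonneg_left ?_ u0.le
    rw [← div_le_iff₀' d0, div_eq_mul_one_div, mul_comm]
    exact (mul_le_mul_of_nonneg_right (by linarith) ((mg hX).up_nonneg x ξ)).trans (a2 ξ).1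
  · rw [e, e']
    exact mul_le_mul_of_nonneg_left (a2 ξ).2 u0.le

/-- the bounds and the ellipticity of the principal part -/
theorem ell_a (hX : X.Ok) (hP : P.Ok) (hG : Gx P C) : ∃ Λ₀ : ℝ,
    (∀ (ψ : M → ℝ) x, ψ x ∈ Icc P.φ₀ 2 → ∀ p i j, |aJ X P ψ x p i j| ≤ Λ₀) ∧
    ∀ N : ℝ, ∃ Λ > (0 : ℝ), ∀ (ψ : M → ℝ) x, ψ x ∈ Icc P.φ₀ 2 → ∀ p, ‖p‖ ≤ N →
      El Λ (aJ X P ψ x p) := by
  obtain ⟨Λ₀, hΛ⟩ := hX.met.ell hX.flat
  have Λ0 : 0 ≤ Λ₀ := zero_le_one.trans hΛ.one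
  have L0 : 0 ≤ P.L := zero_le_one.trans hP.pos.2.1
  have fm := fun (ψ : M → ℝ) x (h : ψ x ∈ Icc P.φ₀ 2) p =>
    form hX hP (hG _ h _ ((mg hX).up_nonneg x p))
  have ent : ∀ (ψ : M → ℝ) x, ψ x ∈ Icc P.φ₀ 2 → ∀ p i j, |aJ X P ψ x p i j| ≤ Λ₀ :=
    fun ψ x h p => P366Y.J.Coef.entry (fm ψ x h p).1 fun ξ =>
      ((fm ψ x h p).2 ξ).2.trans (hΛ.up_hi x ξ)
  refine ⟨Λ₀, ent, fun N => ?_⟩
  obtain ⟨T, hT⟩ : ∃ T, T = (3 / 4 : ℝ) ^ (-(2 * bb n)) * (Λ₀ * (n * N ^ 2)) := ⟨_, rfl⟩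
  have T0 : 0 ≤ T := by rw [hT]; positivity
  have k1 : 0 ≤ Λ₀ * (1 + 4 * P.L * T) := by positivity
  refine ⟨Λ₀ + Λ₀ * (1 + 4 * P.L * T) + 1, by positivity, fun ψ x h p hp => ?_⟩
  have f := fm ψ x h p
  refine ⟨f.1.1, fun i j => (ent ψ x h p i j).trans (by linarith), fun ξ => ?_⟩
  have b0 := bb_pos hX.dim
  have t1 : ∑ i, p i ^ 2 ≤ n * N ^ 2 := (e2_le p).trans (by gcongr)
  have t2 : sq X.g x p ≤ T := by
    rw [sq_cf hX, hT]
    exact mul_le_mul (Real.rpow_le_rpow_of_nonpos (by norm_num) (hX.Ub x).1 (by linarith))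
      ((hΛ.up_hi x p).trans (mul_le_mul_of_nonneg_left t1 Λ0)) (hX.met.up_nonneg x p)
      (by positivity)
  have t3 := mul_le_mul_of_nonneg_right (show 1 + 4 * P.L * sq X.g x p ≤ 1 + 4 * P.L * T by
    gcongr) (f.1.2 ξ)
  refine (hΛ.up_lo x ξ).trans ((mul_le_mul_of_nonneg_left ((f.2 ξ).1.trans t3) Λ0).trans ?_)
  rw [← mul_assoc]
  exact mul_le_mul_of_nonneg_right (by linarith) (f.1.2 ξ)

/-- the coefficients in the charts are elliptic and Lipschitz on bounded sets -/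
theorem coef (hX : X.Ok) (hP : P.Ok) (hG : Gx P C) (κ l N : ℝ) : ∃ Λ > (0 : ℝ), ∀ s : ℝ,
    ∀ σ ∈ Icc (0 : ℝ) 1, ∀ x : M, ∀ y ∈ ball (pt x) 4, ∀ t ∈ Icc P.φ₀ 2, ∀ (z : ℝ) (p : Vc n),
      |z| ≤ N → ‖p‖ ≤ N → El Λ ((lc X P κ (ch x)).aJ P y t p) ∧
      |(lc X P κ (ch x)).bJ P s l σ y t z p| ≤ Λ ∧
      ∀ y' ∈ ball (pt x) 4, ∀ t' ∈ Icc P.φ₀ 2, ∀ (z' : ℝ) (p' : Vc n), |z'| ≤ N → ‖p'‖ ≤ N →
        ‖(lc X P κ (ch x)).aJ P y t p - (lc X P κ (ch x)).aJ P y' t' p'‖ ≤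
          Λ * (‖y - y'‖ + |t - t'| + ‖p - p'‖) ∧
        |(lc X P κ (ch x)).bJ P s l σ y t z p - (lc X P κ (ch x)).bJ P s l σ y' t' z' p'| ≤
          Λ * (‖y - y'‖ + |t - t'| + (1 + 1 / |s|) * |z - z'| + ‖p - p'‖) := by
  obtain ⟨B, hB⟩ := exists_big M
  obtain ⟨-, -, hE⟩ := ell_a hX hP hG
  obtain ⟨Λe, -, hE⟩ := hE (B * N)
  have ok := fun x : M => lc_ok hX hP κ (ch_mem x)
  obtain ⟨Λa, Λa0, ha⟩ := unifL (R := X.ρ + 4) (G := fun _ => P366Z.eu n 0)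
    (F := fun e (q : E n × ℝ × Vc n) => (lc X P κ e).aJ P q.1 q.2.1 q.2.2)
    (isCompact_Icc.prod (isCompact_closedBall (0 : Vc n) N))
    ((convex_Icc P.φ₀ 2).prod (convex_closedBall _ _))
    (fun x q hq => Ld.c_aJ (ok x) contDiff_fst contDiff_snd.fst contDiff_snd.snd
      (hG.lc (ok x) hq.1 _ _)) contDiff_const fun x hx y hy v => (lc_far hX κ hx hy).aJ _ _
  obtain ⟨Λb, Λb0, hb⟩ := unifL (R := X.ρ + 4) (G := fun v => l * v.2.1)
    (F := fun e (q : E n × ℝ × ℝ × Vc n × ℝ × ℝ) =>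
      (lc X P κ e).bA P l q.1 q.2.1 q.2.2.1 q.2.2.2.1 q.2.2.2.2.1 q.2.2.2.2.2)
    (isCompact_Icc.prod ((isCompact_closedBall (0 : ℝ) N).prod
      ((isCompact_closedBall (0 : Vc n) N).prod (isCompact_closedBall (0 : ℝ × ℝ) 2))))
    ((convex_Icc P.φ₀ 2).prod ((convex_closedBall _ _).prod
      ((convex_closedBall _ _).prod (convex_closedBall _ _))))
    (fun x q hq => Ld.c_bA (ok x) hP contDiff_fst contDiff_snd.fst contDiff_snd.snd.fst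
      contDiff_snd.snd.snd.fst (hG.lc (ok x) hq.1 _ _) l (by fun_prop) (by fun_prop))
    (by fun_prop) fun x hx y hy v => (lc_far hX κ hx hy).bA _ _ _ _ _ _
  have k0 : 0 ≤ (n * B ^ 2 + B) * |Λe| := by have := hB.pos; positivity
  refine ⟨(n * B ^ 2 + B) * |Λe| + Λa + Λb, by positivity, fun s σ hσ x y hy t ht z p hz hp => ?_⟩
  have m : ∀ z : ℝ, (σ, Real.arctan (z / s)) ∈ closedBall (0 : ℝ × ℝ) 2 := fun z =>
    mem_closedBall_zero_iff.2 (norm_prod_le_iff.2 ⟨abs_le.2 ⟨by linarith [hσ.1], by linarith [hσ.2]⟩,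
      abs_le.2 ⟨by linarith [Real.neg_pi_div_two_lt_arctan (z / s), Real.pi_le_four],
        by linarith [Real.arctan_lt_pi_div_two (z / s), Real.pi_le_four]⟩⟩)
  have b1 := hb x (y, t, z, p, σ, Real.arctan (z / s)) hy
    ⟨ht, mem_closedBall_zero_iff.2 hz, mem_closedBall_zero_iff.2 hp, m z⟩
  refine ⟨?_, b1.1.trans (by linarith), fun y' hy' t' ht' z' p' hz' hp' => ?_⟩
  · have := hB.el (a := fun x' => aJ X P (fun _ => t) x' (tC (ch x) y p)) hy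
      (hE _ _ ht _ ((hB.tC_le hy p).trans (mul_le_mul_of_nonneg_left hp hB.pos.le)))
    rw [aJ_rep (ch_mem x) κ (fun _ => t) fun _ => tC (ch x) y p, rC_tC (ch_mem x)] at this
    exact el_mono this (by linarith)
  have n1 := norm_nonneg (y - y')
  have n2 := abs_nonneg (t - t')
  have n3 := abs_nonneg (z - z')
  have n4 := norm_nonneg (p - p')
  have n5 : 0 ≤ 1 / |s| * |z - z'| := by positivity
  constructor
  · refine ((ha x (y, t, p) hy ⟨ht, mem_closedBall_zero_iff.2 hp⟩).2 (y', t', p') hy'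
      ⟨ht', mem_closedBall_zero_iff.2 hp'⟩).trans (mul_le_mul (by linarith) ?_ (norm_nonneg _)
        (by positivity))
    exact max_le (show ‖y - y'‖ ≤ _ by linarith) (max_le (show |t - t'| ≤ _ by linarith)
      (show ‖p - p'‖ ≤ _ by linarith))
  · refine (b1.2 (y', t', z', p', σ, Real.arctan (z' / s)) hy' ⟨ht', mem_closedBall_zero_iff.2 hz',
      mem_closedBall_zero_iff.2 hp', m z'⟩).trans (mul_le_mul (by linarith) ?_ (norm_nonneg _)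
        (by positivity))
    have a1 : ‖Real.arctan (z / s) - Real.arctan (z' / s)‖ ≤ 1 * ‖z / s - z' / s‖ :=
      convex_univ.norm_image_sub_le_of_norm_hasDerivWithin_le (f' := fun x => 1 / (1 + x ^ 2))
        (fun x _ => (Real.hasDerivAt_arctan x).hasDerivWithinAt) (fun x _ => by
          rw [Real.norm_eq_abs, abs_of_pos (by positivity)]
          exact (div_le_one (by positivity)).2 (le_add_of_nonneg_right (sq_nonneg x)))
        (mem_univ _) (mem_univ _)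
    rw [← sub_div, one_mul, Real.norm_eq_abs (_ / _), abs_div, div_eq_mul_one_div |z - z'|] at a1
    exact max_le (show ‖y - y'‖ ≤ _ by linarith) (max_le (show |t - t'| ≤ _ by linarith)
      (max_le (show |z - z'| ≤ _ by linarith) (max_le (show ‖p - p'‖ ≤ _ by linarith)
        (max_le (show |σ - σ| ≤ _ by rw [sub_self, abs_zero]; linarith)
          (a1.trans (by linarith))))))

end Vale.Agent.P366M.Y.J
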