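import Vale.Agent.P366Y.T.Gb

/-!
# P366Q, block J: the gradient bound at a maximum point of the square of the gradient
-/

open Filter Topology Set
open Vale.Agent.P366.Stmt Vale.Agent.P366Z

noncomputable section

namespace Vale.Agent.P366Y.JL

variable {n : ℕ}

theorem s1 {F : Fin n → ℝ} {B : ℝ} (h : ∀ i, |F i| ≤ B) : |∑ i, F i| ≤ n * B :=
  (Finset.abs_sum_le_sum_abs _ _).trans ((Finset.sum_le_card_nsmul _ _ B fun i _ => h i).trans
    (by simp))

theorem s2 {F : Mx n} {B : ℝ} (h : ∀ i j, |F i j| ≤ B) : |∑ i, ∑ j, F i j| ≤ n * (n * B) :=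
  s1 fun i => s1 (h i)

theorem m2 {a b A B : ℝ} (ha : |a| ≤ A) (hb : |b| ≤ B) : |a * b| ≤ A * B := by
  rw [abs_mul]; exact mul_le_mul ha hb (abs_nonneg _) ((abs_nonneg _).trans ha)

theorem ent (M : Mx n) (i j : Fin n) : |M i j| ≤ ‖M‖ :=
  (norm_le_pi_norm (M i) j).trans (norm_le_pi_norm M i)

theorem e2_nn (p : Vc n) : 0 ≤ e2 p := Finset.sum_nonneg fun _ _ => sq_nonneg _

theorem fin {C N S q β G τ c0 c1 E D W t : ℝ} (hC : 1 ≤ C) (N0 : 0 < N) (q0 : 0 ≤ q)
    (c00 : 0 ≤ c0) (c10 : 0 ≤ c1) (hS : S ≤ c0 * (q + N)) (hG : q ^ 2 ≤ C ^ 2 * G)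
    (h1 : E + 2 * G + 2 * τ ≤ 0) (hE : |E| ≤ c1 * N ^ 2 + 4 * c1 * (N * S))
    (h2 : W + τ = D + t * β) (hW : |W| ≤ 2 * c1 * (N * S)) (hD : |D| ≤ 2 * c1 * N ^ 2)
    (ht : N ^ 2 ≤ C * t) (hβ : C * (5 * c1 + 8 * c1 * c0 + 8 * (c1 * c0 * C) ^ 2) + 1 ≤ β) :
    False := by
  have C0 : 0 < C := by linarith
  have k0 : 0 ≤ C * (5 * c1 + 8 * c1 * c0 + 8 * (c1 * c0 * C) ^ 2) := by positivity
  have k1 := mul_le_mul_of_nonneg_right ht (show 0 ≤ β by linarith)
  have k2 := mul_le_mul_of_nonneg_left hβ (sq_nonneg N)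
  have k3 : 8 * c1 * (N * S) ≤ 8 * c1 * (N * (c0 * (q + N))) := by gcongr
  have k4 : 2 * G + 2 * (t * β) ≤ 5 * c1 * N ^ 2 + 8 * c1 * (N * (c0 * (q + N))) := by
    linarith [(abs_le.1 hE).1, (abs_le.1 hW).2, (abs_le.1 hD).1]
  have k5 := mul_le_mul_of_nonneg_left k4 (sq_nonneg C)
  have k6 : C ^ 2 * (8 * c1 * (N * (c0 * q))) ≤ 2 * q ^ 2 + C ^ 2 * (8 * (c1 * c0 * C) ^ 2 * N ^ 2) := by
    nlinarith [sq_nonneg (q - 2 * C ^ 2 * c1 * c0 * N)]
  have k7 := mul_le_mul_of_nonneg_left (k2.trans k1) C0.le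
  have k8 : 0 < C * N ^ 2 := by positivity
  have k9 : 0 ≤ C * (N ^ 2 * (C * (5 * c1 + 8 * c1 * c0 + 8 * (c1 * c0 * C) ^ 2))) := by positivity
  nlinarith

/-- the rows of the Hessian are controlled by the good term -/
theorem row {C N q κ : ℝ} {ξ p v : Vc n} (hC : 1 ≤ C) (N0 : 0 < N) (q0 : 0 ≤ q) (hp : ‖p‖ = N)
    (hv : ∀ k, |v k| ≤ n * (C * N)) (ht : N ^ 2 ≤ C * ∑ k, p k * v k)
    (hr : |∑ k, ξ k * v k| ≤ n * (n * (C * N * N))) (hη : e2 (ξ - κ • p) ≤ q ^ 2) (i : Fin n) :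
    |ξ i| ≤ (1 + n ^ 2 * C ^ 2) * (q + N) := by
  have h1 : ∀ k, |(ξ - κ • p) k| ≤ q := fun k => (norm_le_pi_norm (ξ - κ • p) k).trans
    (abs_le_of_sq_le_sq' ((GbT.norm_sq_le _).trans hη) q0).2
  have h2 := s1 fun k => m2 (h1 k) (hv k)
  have h3 : ∑ k, (ξ - κ • p) k * v k = ∑ k, ξ k * v k - κ * ∑ k, p k * v k := by
    simp only [Pi.sub_apply, Pi.smul_apply, smul_eq_mul, sub_mul, Finset.sum_sub_distrib,
      Finset.mul_sum, mul_assoc]
  have C0 : 0 < C := by linarith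
  have t0 : 0 ≤ ∑ k, p k * v k := nonneg_of_mul_nonneg_right ((sq_nonneg N).trans ht) C0 |> id
  have h4 : |κ| * ∑ k, p k * v k ≤ n * (n * (C * N * N)) + n * (q * (n * (C * N))) := by
    have := abs_sub (∑ k, ξ k * v k) (∑ k, (ξ - κ • p) k * v k)
    rw [h3, sub_sub_cancel, abs_mul, abs_of_nonneg t0, ← h3] at this
    linarith
  have h5 : |κ| * N * N ≤ n ^ 2 * C ^ 2 * (q + N) * N := by
    have a1 := mul_le_mul_of_nonneg_left ht (abs_nonneg κ)
    have a2 := mul_le_mul_of_nonneg_left h4 C0.le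
    nlinarith
  have h6 := le_of_mul_le_mul_right h5 N0
  have h7 : |κ * p i| ≤ |κ| * N := m2 le_rfl (hp ▸ norm_le_pi_norm p i)
  have h8 := abs_add_le ((ξ - κ • p) i) (κ * p i)
  have h9 : (ξ - κ • p) i + κ * p i = ξ i := by simp
  rw [h9] at h8
  nlinarith [h1 i]

theorem nE {v : Vc n} {B : ℝ} (h : ∀ k, |v k| ≤ B) (B0 : 0 ≤ B) :
    ‖(WithLp.toLp 2 v : E n)‖ ≤ n * B := by
  rw [EuclideanSpace.norm_eq]
  refine Real.sqrt_le_iff.2 ⟨by positivity, ?_⟩
  refine (Finset.sum_le_card_nsmul _ _ (B ^ 2) fun k _ => ?_).trans ?_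
  · exact pow_le_pow_left₀ (norm_nonneg _) (h k) 2
  · have : (n : ℝ) ≤ n ^ 2 := by exact_mod_cast Nat.le_self_pow two_ne_zero n
    simp only [Finset.card_univ, Fintype.card_fin, nsmul_eq_mul, mul_pow]
    exact mul_le_mul_of_nonneg_right this (sq_nonneg B)

theorem dcomp {W V : Type} [NormedAddCommGroup W] [NormedSpace ℝ W] [NormedAddCommGroup V]
    [NormedSpace ℝ V] {F : E n × W → V} {w : E n → W} {x : E n}
    (hF : DifferentiableAt ℝ F (x, w x)) (hw : DifferentiableAt ℝ w x) :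
    HasFDerivAt (fun y => F (y, w y))
      ((fderiv ℝ F (x, w x)).comp ((ContinuousLinearMap.id ℝ _).prod (fderiv ℝ w x))) x :=
  HasFDerivAt.comp (g := F) (f := fun y => (y, w y)) x hF.hasFDerivAt
    ((hasFDerivAt_id x).prodMk hw.hasFDerivAt)

/-- **the gradient bound at one point** -/
theorem gbl (n : ℕ) {C : ℝ} (hC : 1 ≤ C) : ∃ C' : ℝ, ∀ (f : E n → ℝ) (h : E n → Mx n)
    (a : E n × Vc n → Mx n) (b : E n × ℝ × Vc n → ℝ) (x : E n), Smooth f →
    (∀ k l, Smooth fun y => h y k l) → DifferentiableAt ℝ a (x, D1 f x) →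
    DifferentiableAt ℝ b (x, J1 f x) → (∀ y, pr2 (a (y, D1 f y)) (D2 f y) = b (y, J1 f y)) →
    IsLocalMax (fun y => ∑ k, ∑ l, h y k l * pd k f y * pd l f y) x → El C (h x) →
    (∀ i k l, |pd i (fun y => h y k l) x| ≤ C) →
    (∀ i j k l, |pd i (pd j fun y => h y k l) x| ≤ C) →
    (∀ i j, a (x, D1 f x) i j = a (x, D1 f x) j i) → (∀ i j, |a (x, D1 f x) i j| ≤ C) →
    (∀ ξ : Vc n, ∃ k : ℝ, e2 (ξ - k • D1 f x) ≤ C * ∑ i, ∑ j, a (x, D1 f x) i j * ξ i * ξ j) →
    (∀ u w, ‖D1 f x‖ * ‖fderiv ℝ a (x, D1 f x) (u, w)‖ ≤ C * (‖D1 f x‖ * ‖u‖ + ‖w‖)) →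
    (∀ u w, |fderiv ℝ b (x, J1 f x) (u, 0, w)| ≤ C * (‖D1 f x‖ * ‖u‖ + ‖w‖)) →
    C' ≤ fderiv ℝ b (x, J1 f x) (0, 1, 0) → D1 f x = 0 := by
  refine ⟨C * (5 * (n ^ 4 * C ^ 2) + 8 * (n ^ 4 * C ^ 2) * (1 + n ^ 2 * C ^ 2) +
    8 * (n ^ 4 * C ^ 2 * (1 + n ^ 2 * C ^ 2) * C) ^ 2) + 1,
    fun f h a b x hf hh da db he hm el h1 h2 sy bd tg hA hB hβ => ?_⟩
  by_contra p0
  have C0 : 0 < C := by linarith
  obtain ⟨N, hN⟩ : ∃ N, N = ‖D1 f x‖ := ⟨_, rfl⟩
  have N0 : 0 < N := hN ▸ norm_pos_iff.2 p0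
  have n1 : (1 : ℝ) ≤ n := by
    obtain ⟨i, -⟩ := Function.ne_iff.1 p0
    exact_mod_cast i.pos
  obtain ⟨S, hS⟩ : ∃ S, S = ‖D2 f x‖ := ⟨_, rfl⟩
  have S0 : 0 ≤ S := hS ▸ norm_nonneg _
  have bp : ∀ k, |pd k f x| ≤ N := fun k => hN ▸ norm_le_pi_norm (D1 f x) k
  have bH : ∀ i k, |pd i (pd k f) x| ≤ S := fun i k => hS ▸ ent (D2 f x) i k
  have a0 : ∀ ξ, 0 ≤ Grad.qf (a (x, D1 f x)) ξ := fun ξ => by
    obtain ⟨k, hk⟩ := tg ξ
    exact nonneg_of_mul_nonneg_right ((e2_nn _).trans hk) C0 |> id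
  have df := fun k y => (hf.pd k).diff y
  have ddf := fun j k y => ((hf.pd k).pd j).diff y
  have dh := fun k l y => (hh k l).diff y
  have ddh := fun j k l y => ((hh k l).pd j).diff y
  have sm : Smooth fun y => ∑ k, ∑ l, h y k l * pd k f y * pd l f y :=
    ContDiff.sum fun k _ => ContDiff.sum fun l _ => ((hh k l).mul (hf.pd k)).mul (hf.pd l)
  have d1 : ∀ j y, pd j (fun y => ∑ k, ∑ l, h y k l * pd k f y * pd l f y) y =
      ∑ k, ∑ l, ((pd j (fun y => h y k l) y * pd k f y + h y k l * pd j (pd k f) y) * pd l f y +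
        h y k l * pd k f y * pd j (pd l f) y) := fun j y => by
    rw [pd_sum _ fun k _ => .fun_sum fun l _ => ((dh k l y).fun_mul (df k y)).fun_mul (df l y)]
    refine Finset.sum_congr rfl fun k _ => ?_
    rw [pd_sum _ fun l _ => ((dh k l y).fun_mul (df k y)).fun_mul (df l y)]
    exact Finset.sum_congr rfl fun l _ => by
      rw [pd_mul ((dh k l y).fun_mul (df k y)) (df l y), pd_mul (dh k l y) (df k y)]
  have d2 : ∀ i j, pd i (pd j fun y => ∑ k, ∑ l, h y k l * pd k f y * pd l f y) x =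
      ∑ k, ∑ l, ((pd i (pd j fun y => h y k l) x * pd k f x * pd l f x +
        (pd j (fun y => h y k l) x * pd i (pd k f) x * pd l f x +
          pd i (fun y => h y k l) x * pd j (pd k f) x * pd l f x +
          pd j (fun y => h y k l) x * pd k f x * pd i (pd l f) x +
          pd i (fun y => h y k l) x * pd k f x * pd j (pd l f) x)) +
        (h x k l * pd j (pd k f) x * pd i (pd l f) x + h x k l * pd i (pd k f) x * pd j (pd l f) x) +
        (h x k l * pd i (pd j (pd k f)) x * pd l f x +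
          h x k l * pd k f x * pd i (pd j (pd l f)) x)) := fun i j => by
    have q1 := fun k l => ((ddh j k l x).fun_mul (df k x)).fun_add ((dh k l x).fun_mul (ddf j k x))
    have q2 := fun k l => (q1 k l).fun_mul (df l x)
    have q3 := fun k l => ((dh k l x).fun_mul (df k x)).fun_mul (ddf j l x)
    rw [funext (d1 j), pd_sum _ fun k _ => .fun_sum fun l _ => (q2 k l).fun_add (q3 k l)]
    refine Finset.sum_congr rfl fun k _ => ?_
    rw [pd_sum _ fun l _ => (q2 k l).fun_add (q3 k l)]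
    refine Finset.sum_congr rfl fun l _ => ?_
    rw [pd_add (q2 k l) (q3 k l), pd_mul (q1 k l) (df l x),
      pd_add ((ddh j k l x).fun_mul (df k x)) ((dh k l x).fun_mul (ddf j k x)),
      pd_mul (ddh j k l x) (df k x), pd_mul (dh k l x) (ddf j k x),
      pd_mul ((dh k l x).fun_mul (df k x)) (ddf j l x), pd_mul (dh k l x) (df k x)]
    ring
  have t := fun ξ => Grad.test (f := fun y => ∑ k, ∑ l, h y k l * pd k f y * pd l f y)
    (h := fun _ => 0) (a := x) (b := x) (ξ := ξ) (η := 0) (α := 0) (β := 0) (sm.c2 x)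
    contDiffAt_const (by
      have c : Tendsto (fun t : ℝ => x + t • ξ) (𝓝 0) (𝓝 x) :=
        Continuous.tendsto' (by fun_prop) _ _ (by simp)
      filter_upwards [c.eventually hm] with t ht
      simpa using ht)
  obtain ⟨v, hv⟩ : ∃ v : Vc n, v = fun k => ∑ l, h x k l * pd l f x := ⟨_, rfl⟩
  have bv : ∀ k, |v k| ≤ n * (C * N) := fun k => hv ▸ s1 fun l => m2 (el.2.1 k l) (bp l)
  have sw : ∀ F : Vc n, ∑ k, ∑ l, h x k l * F k * pd l f x = ∑ k, F k * v k := fun F =>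
    Finset.sum_congr rfl fun k _ => by
      rw [hv, Finset.mul_sum]; exact Finset.sum_congr rfl fun l _ => by ring
  have sw' : ∀ F : Vc n, ∑ k, ∑ l, h x k l * pd k f x * F l = ∑ k, F k * v k := fun F => by
    rw [Finset.sum_comm, ← sw]
    exact Finset.sum_congr rfl fun k _ => Finset.sum_congr rfl fun l _ => by rw [el.1 l k]; ring
  have o1 : ∀ j, |∑ k, pd j (pd k f) x * v k| ≤ n * (n * (C * N * N)) := fun j => by
    have k := (t (EuclideanSpace.single j 1)).1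
    rw [map_zero, sub_zero, ← pd_eq (sm.diff x), d1] at k
    simp only [add_mul, Finset.sum_add_distrib, sw, sw'] at k
    have k2 := s2 fun k l => m2 (m2 (h1 j k l) (bp k)) (bp l)
    have k3 : 0 ≤ n * (n * (C * N * N)) := by positivity
    rw [abs_le] at k2 ⊢
    constructor <;> linarith [k2.1, k2.2]
  have o2 := Grad.pr_le sy a0
    (H := fun i j => pd i (pd j fun y => ∑ k, ∑ l, h y k l * pd k f y * pd l f y) x) fun ξ => by
      have k := (t (WithLp.toLp 2 ξ)).2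
      rwa [map_zero, sub_zero, mul_zero, Grad.d2_eq (sm.c2 x)] at k
  have ht : N ^ 2 ≤ C * ∑ k, pd k f x * v k := by
    rw [← sw, hN]
    exact (GbT.norm_sq_le _).trans (el.2.2 (D1 f x))
  -- the Gram matrix
  obtain ⟨A, hA'⟩ : ∃ A : Mx n, A = fun k l =>
      ∑ i, ∑ j, a (x, D1 f x) i j * pd i (pd k f) x * pd j (pd l f) x := ⟨_, rfl⟩
  have Asy : ∀ k l, A k l = A l k := fun k l => by
    simp only [hA']
    rw [Finset.sum_comm]
    exact Finset.sum_congr rfl fun i _ => Finset.sum_congr rfl fun j _ => by rw [sy j i]; ring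
  have A0 : ∀ ξ, 0 ≤ Grad.qf A ξ := fun ξ => by
    refine (a0 fun i => ∑ k, pd i (pd k f) x * ξ k).trans_eq ?_
    simp only [Grad.qf, hA', Finset.mul_sum, Finset.sum_mul]
    refine (Finset.sum_congr rfl fun i _ => Finset.sum_comm).trans (Finset.sum_comm.trans ?_)
    refine Eq.trans ?_ Finset.sum_comm
    refine Finset.sum_congr rfl fun l _ => ?_
    refine (Finset.sum_congr rfl fun i _ => Finset.sum_comm).trans (Finset.sum_comm.trans ?_)
    exact Finset.sum_congr rfl fun k _ => Finset.sum_congr rfl fun i _ =>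
      Finset.sum_congr rfl fun j _ => by ring
  have Akk : ∀ k, 0 ≤ A k k := fun k => Grad.qf_single A k ▸ A0 _
  have Q0 : 0 ≤ C * ∑ k, A k k := mul_nonneg C0.le (Finset.sum_nonneg fun k _ => Akk k)
  have hG : √(C * ∑ k, A k k) ^ 2 ≤ C ^ 2 * Grad.pr (h x) A := by
    have k := Grad.pr_le Asy A0
      (H := fun i j => -C * h x i j + 0 * h x i j + 1 * Grad.id1 i j) fun ξ => by
        rw [Grad.qf_lin]
        have := el.2.2 ξ
        simp only [e2] at this
        simp only [Grad.qf]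
        linarith
    rw [Grad.pr_comm, Grad.pr_lin] at k
    rw [Real.sq_sqrt Q0]
    nlinarith
  have hS' : S ≤ (1 + n ^ 2 * C ^ 2) * (√(C * ∑ k, A k k) + N) := by
    rw [hS]
    refine (pi_norm_le_iff_of_nonneg (by positivity)).2 fun i =>
      (pi_norm_le_iff_of_nonneg (by positivity)).2 fun k => ?_
    obtain ⟨κ, hκ⟩ := tg fun i => pd i (pd k f) x
    refine row (ξ := fun i => pd i (pd k f) x) (κ := κ) hC N0 (Real.sqrt_nonneg _) hN.symm bv ht
      ?_ (hκ.trans ?_) i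
    · simpa only [pd_comm (hf.c2 x) k] using o1 k
    · rw [Real.sq_sqrt Q0]
      refine mul_le_mul_of_nonneg_left (le_of_eq_of_le ?_
        (Finset.single_le_sum (f := fun k => A k k) (fun k _ => Akk k) (Finset.mem_univ k))) C0.le
      rw [hA']
  -- the derivative of the equation
  obtain ⟨u, hu⟩ : ∃ u : E n, u = WithLp.toLp 2 v := ⟨_, rfl⟩
  have bu : ‖u‖ ≤ n * (n * (C * N)) := hu ▸ nE bv (by positivity)
  have dv : ∀ {w : E n → ℝ}, DifferentiableAt ℝ w x → fderiv ℝ w x u = ∑ k, v k * pd k w x :=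
    fun hw => hu ▸ fderiv_eq_sum hw _
  have dD : DifferentiableAt ℝ (D1 f) x := differentiableAt_pi.2 fun i => df i x
  have dJ : DifferentiableAt ℝ (J1 f) x := (hf.diff x).prodMk dD
  obtain ⟨r, hr⟩ : ∃ r, r = fderiv ℝ (D1 f) x u := ⟨_, rfl⟩
  have br : ‖r‖ ≤ n * (n * (C * N * N)) := (pi_norm_le_iff_of_nonneg (by positivity)).2 fun i => by
    rw [hr, show D1 f = fun y i => pd i f y from rfl, fderiv_pi fun i => df i x]
    show |fderiv ℝ (pd i f) x u| ≤ _
    rw [dv (df i x)]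
    simpa only [pd_comm (hf.c2 x) i, mul_comm (v _)] using o1 i
  have z2 : fderiv ℝ (J1 f) x u = (∑ k, pd k f x * v k, r) := by
    rw [show J1 f = fun y => (f y, D1 f y) from rfl, (hf.diff x).fderiv_prodMk dD]
    exact Prod.ext ((dv (hf.diff x)).trans (Finset.sum_congr rfl fun k _ => mul_comm _ _)) hr.symm
  have ca := dcomp da dD
  have cb := dcomp db dJ
  have da1 : ∀ i j, HasFDerivAt (fun y => a (y, D1 f y) i j) _ x := fun i j =>
    hasFDerivAt_pi'.1 (hasFDerivAt_pi'.1 ca i) j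
  have c1 : ∀ i j, |∑ k, v k * pd k (fun y => a (y, D1 f y) i j) x| ≤ 2 * (n ^ 2 * C ^ 2) * N :=
    fun i j => by
      rw [← dv (da1 i j).differentiableAt, (da1 i j).fderiv]
      refine (ent (fderiv ℝ a (x, D1 f x) (u, fderiv ℝ (D1 f) x u)) i j).trans ?_
      refine le_of_mul_le_mul_left ?_ N0
      rw [← hr]
      have k := hA u r
      rw [← hN] at k
      refine k.trans ?_
      have := mul_le_mul_of_nonneg_left bu N0.le
      nlinarith
  have c2 : ∑ k, v k * pd k (fun y => b (y, J1 f y)) x = fderiv ℝ b (x, J1 f x) (u, 0, r) +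
      (∑ k, pd k f x * v k) * fderiv ℝ b (x, J1 f x) (0, 1, 0) := by
    rw [← dv cb.differentiableAt, cb.fderiv, ← smul_eq_mul, ← map_smul, ← map_add]
    show fderiv ℝ b (x, J1 f x) (u, fderiv ℝ (J1 f) x u) = _
    rw [z2]
    simp
  have c3 : ∀ k, pd k (fun y => b (y, J1 f y)) x = ∑ i, ∑ j, (pd k (fun y => a (y, D1 f y) i j) x *
      pd i (pd j f) x + a (x, D1 f x) i j * pd i (pd j (pd k f)) x) := fun k => by
    have dd := fun i j => ddf i j x
    have da2 := fun i j => (da1 i j).differentiableAt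
    rw [← funext he]
    refine (pd_sum _ (fun i _ => .fun_sum fun j _ => (da2 i j).fun_mul (dd i j)) k).trans
      (Finset.sum_congr rfl fun i _ => (pd_sum _ (fun j _ => (da2 i j).fun_mul (dd i j)) k).trans
        (Finset.sum_congr rfl fun j _ => (pd_mul (da2 i j) (dd i j) k).trans ?_))
    rw [pd_comm ((hf.pd j).c2 x), funext fun y => pd_comm (hf.c2 y) k j]
  have n2 : (n : ℝ) ^ 2 ≤ n ^ 4 := pow_le_pow_right₀ n1 (by norm_num)
  refine fin (τ := ∑ i, ∑ j, a (x, D1 f x) i j * ∑ k, pd i (pd j (pd k f)) x * v k)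
    (E := ∑ i, ∑ j, a (x, D1 f x) i j * ∑ k, ∑ l,
      (pd i (pd j fun y => h y k l) x * pd k f x * pd l f x +
        (pd j (fun y => h y k l) x * pd i (pd k f) x * pd l f x +
          pd i (fun y => h y k l) x * pd j (pd k f) x * pd l f x +
          pd j (fun y => h y k l) x * pd k f x * pd i (pd l f) x +
          pd i (fun y => h y k l) x * pd k f x * pd j (pd l f) x)))
    (W := ∑ i, ∑ j, (∑ k, v k * pd k (fun y => a (y, D1 f y) i j) x) * pd i (pd j f) x)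
    (D := fderiv ℝ b (x, J1 f x) (u, 0, r))
    hC N0 (Real.sqrt_nonneg _) (by positivity) (by positivity) hS' hG ?_ ?_ ?_ ?_ ?_ ht hβ
  · refine le_of_eq_of_le ?_ o2
    have g1 : Grad.pr (h x) A = ∑ i, ∑ j, a (x, D1 f x) i j *
        ∑ k, ∑ l, h x k l * pd i (pd k f) x * pd j (pd l f) x := by
      simp only [Grad.pr, hA', Finset.mul_sum]
      refine (Finset.sum_congr rfl fun i _ => Finset.sum_comm).trans (Finset.sum_comm.trans ?_)
      refine Finset.sum_congr rfl fun i _ => ?_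
      refine (Finset.sum_congr rfl fun i _ => Finset.sum_comm).trans (Finset.sum_comm.trans ?_)
      exact Finset.sum_congr rfl fun k _ => Finset.sum_congr rfl fun i _ =>
        Finset.sum_congr rfl fun j _ => by ring
    have g2 : Grad.pr (h x) A = ∑ i, ∑ j, a (x, D1 f x) i j *
        ∑ k, ∑ l, h x k l * pd j (pd k f) x * pd i (pd l f) x := by
      rw [g1, Finset.sum_comm]
      exact Finset.sum_congr rfl fun i _ => Finset.sum_congr rfl fun j _ => by rw [sy]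
    rw [two_mul (Grad.pr (h x) A)]
    nth_rewrite 1 [g2]
    rw [g1]
    simp only [Grad.pr, d2, Finset.sum_add_distrib (f := fun l => _ + _ + (_ + _)), sw, sw',
      Finset.sum_add_distrib, mul_add]
    ring
  · refine (s2 fun i j => m2 (bd i j) (s2 fun k l => (abs_add_le _ _).trans (add_le_add
      (m2 (m2 (h2 i j k l) (bp k)) (bp l)) ((abs_add_le _ _).trans (add_le_add
        ((abs_add_three _ _ _).trans (add_le_add (add_le_add (m2 (m2 (h1 j k l) (bH i k)) (bp l))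
          (m2 (m2 (h1 i k l) (bH j k)) (bp l))) (m2 (m2 (h1 j k l) (bp k)) (bH i l))))
        (m2 (m2 (h1 i k l) (bp k)) (bH j l))))))).trans (le_of_eq ?_)
    ring
  · refine Eq.trans ?_ c2
    simp only [c3, Finset.mul_sum, mul_add, Finset.sum_add_distrib, Finset.sum_mul]
    refine congrArg₂ (· + ·) ?_ ?_ <;> refine Eq.trans ?_ Finset.sum_comm <;>
      refine Finset.sum_congr rfl fun i _ => Eq.trans ?_ Finset.sum_comm <;>
      exact Finset.sum_congr rfl fun j _ => Finset.sum_congr rfl fun k _ => by ring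
  · exact (s2 fun i j => m2 (c1 i j) (bH i j)).trans (le_of_eq (by ring))
  · refine (hB u r).trans ?_
    rw [← hN]
    have k1 := mul_le_mul_of_nonneg_left bu N0.le
    have k2 : n ^ 2 * (C ^ 2 * N ^ 2) ≤ n ^ 4 * (C ^ 2 * N ^ 2) := by gcongr
    nlinarith

end Vale.Agent.P366Y.JL
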