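import Vale.Agent.P366Q.J.Coef
import Vale.Agent.P366Q.J.Gbl
import Vale.Agent.P366Y.J.Asm

/-!
# P366Q, block J: the bound of the gradient
-/

open MeasureTheory Metric Filter Topology Set
open scoped ContDiff ENNReal
open Vale.Agent.P366 Vale.Agent.P366.Stmt Vale.Agent.P366Z Vale.Agent.P366Y
open Vale.Agent.P366Y.J (io Ga GA PROF Psd big_mono)
open Vale.Agent.P366Y.JL (Ld)

noncomputable section

namespace Vale.Agent.P366M.Y.J

variable {n : ℕ} {M : Type} [Mfe n M]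

theorem grad_small {f : M → ℝ} {x : M} {r a b : ℝ} (hf : Smooth f) (hx : R0 M ≤ ‖px x‖)
    (hr : 0 < r) (r1 : r < 1) (ha : 0 ≤ a) (hb : 0 ≤ b)
    (h1 : ∀ y, ‖px y - px x‖ ≤ r → |f y| ≤ a) (h2 : ∀ y ∈ ball (pt x) 1, ‖y - pt x‖ ≤ r →
      ‖rC (ch x) (D1 f) y - rC (ch x) (D1 f) (pt x)‖ ≤ b) : ‖D1 f x‖ ≤ 2 * a / r + b := by
  rw [rC_loc hf (ch_mem x)] at h2
  refine P366Y.J.AsmH.grad_small (hf.lc (ch_mem x)) hr ha hb (fun y hy => h1 _ ?_) fun y hy =>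
    h2 y (mem_ball_iff_norm.2 (hy.trans_lt r1)) hy
  rw [pt_far hx] at hy
  rwa [px_symm hx (mem_ball_iff_norm.2 (by linarith))]

/-- the gradient tends to zero -/
theorem d1_lim {f : M → ℝ} {α A : ℝ} (hf : Smooth f) (hl : Tendsto f (cocompact M) (𝓝 0))
    (hα : 0 < α) (hH : HoC α A (D1 f)) {ε : ℝ} (hε : 0 < ε) :
    ∀ᶠ x in cocompact M, ‖D1 f x‖ < ε := by
  have A0 := hH.nn
  have c1 : ContinuousAt (fun r : ℝ => A * r ^ α) 0 :=
    (Real.continuousAt_rpow_const 0 α (Or.inr hα.le)).const_mul A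
  have c2 : ∀ᶠ r : ℝ in 𝓝[>] 0, A * r ^ α < ε / 2 :=
    nhdsWithin_le_nhds (c1.eventually_lt continuousAt_const (by
      simp only [Real.zero_rpow hα.ne', mul_zero]; linarith))
  obtain ⟨r, h1, hr, r1⟩ := (c2.and (Ioo_mem_nhdsGT (zero_lt_one' ℝ))).exists
  obtain ⟨R, hR⟩ := ev_cocompact.1 (hl.abs.eventually
    (ge_mem_nhds (show |(0 : ℝ)| < r * (ε / 4) by rw [abs_zero]; positivity)))
  refine ev_cocompact.2 ⟨max (R + 1) (R0 M), fun x hx => ?_⟩
  have k := grad_small (a := r * (ε / 4)) (b := A * r ^ α) hf ((le_max_right _ _).trans hx) hr r1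
    (by positivity) (by positivity) (fun y hy => hR y (by
      linarith [le_max_left (R + 1) (R0 M), norm_sub_norm_le (px x) (px y),
        norm_sub_rev (px x) (px y)])) fun y hy h => ((hH x).2 y hy _ (pt_mem x)).trans (by gcongr)
  have e : 2 * (r * (ε / 4)) / r = ε / 2 := by field_simp; ring
  linarith

/-- the derivatives of the coefficients for large gradients -/
theorem big {Y : Ld n} {P : Pa} {C s l σ z K : ℝ} {ψ : E n → ℝ} {x : E n} {p : Vc n} (hY : Y.Ok)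
    (hP : P.Ok) (hG : Gx P C) (bd : ∀ y, ψ y ∈ Icc P.φ₀ 2) (hp : 2 * P.M₀ ^ 2 < P366Y.sq Y.g x p)
    (p0 : p ≠ 0) (db : DifferentiableAt ℝ
      (fun q : E n × ℝ × Vc n => Y.bJ P s l σ q.1 (ψ q.1) q.2.1 q.2.2) (x, z, p))
    (hK : ‖fderiv ℝ (fun q => (Y.Fa P.L q, Y.Fb P.L q))
      (x, ‖p‖⁻¹ • p, 1 / ‖p‖, σ, P.T₁ z, Real.arctan (z / s), l * z / ‖p‖)‖ ≤ K) (u : E n)
    (w : Vc n) : ‖p‖ * ‖fderiv ℝ (fun q : E n × Vc n => Y.aJ P q.1 (ψ q.1) q.2) (x, p) (u, w)‖ ≤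
      K * (‖p‖ * ‖u‖ + ‖w‖) ∧ |fderiv ℝ (fun q : E n × ℝ × Vc n =>
        Y.bJ P s l σ q.1 (ψ q.1) q.2.1 q.2.2) (x, z, p) (u, 0, w)| ≤ K * (‖p‖ * ‖u‖ + ‖w‖) := by
  have N0 := norm_pos_iff.2 p0
  generalize ‖p‖ = N at *
  have L0 : 0 < P.L := by linarith [hP.pos.2.1]
  obtain ⟨c, hc⟩ : ∃ c, c = (1 / N, σ, P.T₁ z, Real.arctan (z / s), l * z / N) := ⟨_, rfl⟩
  have cF := Ld.c_F hY L0 (q := (x, N⁻¹ • p, c)) (smul_ne_zero (inv_ne_zero N0.ne') p0)
  have h1 := HasFDerivAt.comp (f := fun q : E n × Vc n => (q.1, N⁻¹ • q.2, c)) (x, p)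
    ((cF.1.prodMk cF.2).differentiableAt (by simp)).hasFDerivAt
    (hasFDerivAt_fst.prodMk ((hasFDerivAt_snd.const_smul N⁻¹).prodMk (hasFDerivAt_const c _)))
  have ev : ∀ᶠ q : E n × Vc n in 𝓝 (x, p), Y.aJ P q.1 (ψ q.1) q.2 = Y.Fa P.L (q.1, N⁻¹ • q.2, c) ∧
      Y.bJ P s l σ q.1 (ψ q.1) z q.2 = N * Y.Fb P.L (q.1, N⁻¹ • q.2, c) := by
    filter_upwards [(isOpen_lt continuous_const (P366Y.J.Coef.c_sq hY.mg contDiff_fst
      contDiff_snd).continuous).mem_nhds hp] with ⟨y, p'⟩ hq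
    obtain ⟨v, rfl⟩ : ∃ v, p' = N • v := ⟨N⁻¹ • p', (smul_inv_smul₀ N0.ne' p').symm⟩
    have k := (hG.lc hY (bd y) y (N • v)).cut (le_of_lt hq)
    have ea := Ld.ag_w hY L0 N0 k.1
    simp only [inv_smul_smul₀ N0.ne', hc]
    exact ⟨by funext i j; simp only [Ld.aJ, Ld.Fa, ea], Ld.b_w N0 ea k.2 s l σ z⟩
  have h2 := h1.fst.congr_of_eventuallyEq (ev.mono fun q hq => hq.1)
  have h3 := (h1.snd.const_mul N).congr_of_eventuallyEq (ev.mono fun q hq => hq.2)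
  have h4 := HasFDerivAt.comp (f := fun q : E n × Vc n => (q.1, z, q.2)) (x, p) db.hasFDerivAt
    (hasFDerivAt_fst.prodMk ((hasFDerivAt_const z _).prodMk hasFDerivAt_snd))
  have h5 := DFunLike.congr_fun (h4.unique h3) (u, w)
  rw [← hc] at hK
  have h6 : N * ‖fderiv ℝ (fun q => (Y.Fa P.L q, Y.Fb P.L q)) (x, N⁻¹ • p, c) (u, N⁻¹ • w, 0)‖ ≤
      K * (N * ‖u‖ + ‖w‖) := by
    have e : ‖((u, N⁻¹ • w, 0) : P366Y.J.GradH.Zp n)‖ ≤ ‖u‖ + N⁻¹ * ‖w‖ :=
      norm_prod_le_iff.2 ⟨le_add_of_nonneg_right (by positivity), norm_prod_le_iff.2 ⟨by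
        rw [norm_smul, Real.norm_of_nonneg (inv_pos.2 N0).le]
        exact le_add_of_nonneg_left (norm_nonneg _), by rw [norm_zero]; positivity⟩⟩
    refine (mul_le_mul_of_nonneg_left
      (ContinuousLinearMap.le_of_opNorm_le_of_le _ hK e) N0.le).trans_eq ?_
    field_simp
  refine ⟨le_trans (mul_le_mul_of_nonneg_left ?_ N0.le) h6, (congrArg _ h5).trans_le
    (le_trans ?_ h6)⟩
  · rw [h2.fderiv]
    exact norm_fst_le _
  · exact (abs_mul N _).trans_le (mul_le_mul (abs_of_pos N0).le (norm_snd_le (fderiv ℝ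
      (fun q => (Y.Fa P.L q, Y.Fb P.L q)) (x, N⁻¹ • p, c) (u, N⁻¹ • w, 0))) (abs_nonneg _) N0.le)

theorem up_d2 (M : Type) [Mfe n M] : ∃ K, ∀ (x : M) i j k l,
    |Stmt.pd i (Stmt.pd j fun y => Stmt.up (rep (ch x) bg) k l y) (pt x)| ≤ K := by
  obtain ⟨K, -, hK⟩ := bdd_pt (M := M) (R := R0 M + 1) (C := 0)
    (F := fun e y i j k l => Stmt.pd i (Stmt.pd j fun y => Stmt.up (rep e bg) k l y) y)
    (fun e he => continuous_pi fun i => continuous_pi fun j => continuous_pi fun k =>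
      continuous_pi fun l => ((((bg_met.rep he).sm_up k l).pd j).pd i).cont) fun x hx => by
      refine (norm_eq_zero.2 ?_).le
      funext i j k l
      have : (fun y => Stmt.up (rep (ch x) bg) k l y) =ᶠ[𝓝 (pt x)] fun _ => P366Z.eu n 0 k l :=
        ((flat_bg le_rfl).rep_ev hx).mono fun y hy => (P366Z.up_of_eq hy k l).trans (P366Z.up_eu k l y)
      rw [P366Z.pd_congr (P366Z.pd_congr_ev this j), funext (P366Z.pd_const _ j), P366Z.pd_const]
      rfl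
  exact ⟨K, fun x i j k l => (abs_le_norm2 _ k l).trans ((norm_le_pi_norm _ j).trans
    ((norm_le_pi_norm _ i).trans (hK x)))⟩

/-- **row JGRAD** -/
theorem jgrad_of (hGA : GA) (hJS : JSUP) : JGRAD := by
  intro n M _ X h
  obtain ⟨C₁, -, hG⟩ := hGA
  refine ⟨C₁, fun P c => ?_⟩
  replace hG : Gx P C₁ := hG P c.hP c.big
  obtain ⟨Λ₀, hA, -⟩ := ell_a h c.hP hG
  obtain ⟨p1, p2, p3, p4, p5, p6, p7, p8, p9⟩ := c.hP.pos
  have L0 : 0 < P.L := by linarith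
  have ok := fun x : M => lc_ok h c.hP 1 (ch_mem x)
  obtain ⟨Λ, hΛ⟩ := h.met.ell h.flat
  obtain ⟨Λb, hb⟩ := (bg_met (M := M)).ell (flat_bg h.flat.R)
  obtain ⟨K₂, hK₂⟩ := up_d2 M
  have Λ1 := hΛ.one
  have b1 := hb.one
  have el : ∀ y ξ, e2 ξ ≤ Λ * (X.U y ^ (2 * bb n) * sq X.g y ξ) := fun y ξ => by
    rw [sq_cf h, ← mul_assoc (X.U y ^ _), U_mul h, one_mul]
    exact hΛ.up_lo y ξ
  obtain ⟨K, K0, hK⟩ := unifD (R := X.ρ + 4) (G := fun v => (P366Z.eu n 0, v.2.2.2.2.2))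
    (F := fun e q => ((lc X P 1 e).Fa P.L q, (lc X P 1 e).Fb P.L q))
    ((isCompact_sphere (0 : Vc n) 1).prod
      (isCompact_closedBall (0 : ℝ × ℝ × ℝ × ℝ × ℝ) (2 * P.CK)))
    (fun x q hq => have k := Ld.c_F (ok x) L0 (q := q) fun e => by simpa [e] using hq.1
      k.1.prodMk k.2) (by fun_prop) fun x hx y hy v => (lc_far h 1 hx hy).F _ v
  obtain ⟨C, hC⟩ : ∃ C, C = Λ + Λb + K + |Λ₀| + |K₂| := ⟨_, rfl⟩
  have a0 := abs_nonneg Λ₀
  have k0 := abs_nonneg K₂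
  obtain ⟨C', hB⟩ := JL.gbl n (C := C) (by linarith)
  refine ⟨max C' 1, fun l hl => ?_⟩
  have l1 : 1 ≤ l := (le_max_right _ _).trans hl
  have n1 : (1 : ℝ) ≤ n := by exact_mod_cast (by linarith [h.dim] : 1 ≤ n)
  obtain ⟨Q, hQ⟩ : ∃ Q : ℝ, Q = P.M₀ + 1 + 4 * |C'| / P.τ := ⟨_, rfl⟩
  have Q0 : 0 ≤ 4 * |C'| / P.τ := by positivity
  have M0 : 0 ≤ l * (8 * P.F₀) := by positivity
  have M2 : 0 ≤ 2 * Λ * Q := by rw [hQ]; positivity
  obtain ⟨N, hN⟩ : ∃ N : ℝ, N = 1 + l * (8 * P.F₀) + 2 * Λ * Q := ⟨_, rfl⟩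
  have N1 : 1 ≤ N := by linarith
  refine ⟨Λb * (n * N), one_le_mul_of_one_le_of_one_le b1 (one_le_mul_of_one_le_of_one_le n1 N1),
    fun s hs σ hσ A ψ f hψ hf x₀ => ?_⟩
  have w1 : ∀ x, ip bg f f x ≤ Λb * (n * ‖D1 f x‖ ^ 2) := fun x =>
    (hb.up_hi x (D1 f x)).trans (mul_le_mul_of_nonneg_left (e2_le _) (by linarith))
  suffices key : ip bg f f x₀ ≤ Λb * (n * N ^ 2) by
    refine abs_le_of_sq_le_sq' ((hb.le_ip (hf.sm.diff x₀)).trans
      ((mul_le_mul_of_nonneg_left key (by linarith)).trans ?_)) (by positivity) |>.2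
    have : (n : ℝ) ≤ n ^ 2 := by nlinarith
    have := mul_le_mul_of_nonneg_left this (show 0 ≤ Λb ^ 2 * N ^ 2 by positivity)
    linarith
  by_contra hx₀
  obtain ⟨α, hα, A₁, h2⟩ := hf.c2
  obtain ⟨x, hm⟩ := (bg_met.sm_ip hf.sm hf.sm).cont.exists_forall_ge' x₀
    ((d1_lim hf.sm hf.lim hα.1 h2.2.2.1 (by linarith : 0 < N)).mono fun y hy =>
      ((w1 y).trans (by gcongr)).trans (not_le.1 hx₀).le)
  have hp : N ≤ ‖D1 f x‖ := by
    by_contra k
    exact hx₀ ((hm x₀).trans ((w1 x).trans (by gcongr; exact (not_le.1 k).le)))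
  have he := ch_mem x
  have sψ := hψ.sm.lc he
  have hz := hJS n M X P s l σ A ψ f h c.hP c.fo hs (by linarith) hσ hψ hf x
  have N0 : 0 < ‖D1 f x‖ := by linarith
  have p0 := norm_pos_iff.1 N0
  have s0 : ∀ ξ, 0 ≤ sq X.g x ξ := (mg h).up_nonneg x
  have t1 : 2 * Q ^ 2 ≤ sq X.g x (D1 f x) := by
    have a1 := (le_e2 _).trans (el x (D1 f x))
    have a2 := mul_le_mul_of_nonneg_left
      (mul_le_mul_of_nonneg_right (U_bd h x).2 (s0 (D1 f x))) (zero_le_one.trans Λ1)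
    have a3 : (2 * Λ * Q) ^ 2 ≤ ‖D1 f x‖ ^ 2 := by gcongr; linarith
    have a4 : 2 * Λ * (2 * Q ^ 2) ≤ (2 * Λ * Q) ^ 2 := by nlinarith [sq_nonneg Q]
    exact le_of_mul_le_mul_left (a := 2 * Λ) (by linarith) (by linarith)
  have t0 : 2 * P.M₀ ^ 2 < sq X.g x (D1 f x) := lt_of_lt_of_le (by gcongr; linarith) t1
  have t2 := (hG (ψ x) (hψ.bd x) _ (s0 _)).cut t0.le
  have sψ' : ∀ {W : Type} [NormedAddCommGroup W] [NormedSpace ℝ W],
      ContDiff ℝ ∞ fun w : E n × W => loc (ch x) ψ w.1 :=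
    ContDiff.comp (g := loc (ch x) ψ) sψ contDiff_fst
  have db := (Ld.c_bJ (q := (pt x, f x, D1 f x)) (ok x) c.hP contDiff_fst sψ' contDiff_snd.fst
    contDiff_snd.snd (hG.lc (ok x) (hψ.bd _) _ _) s l σ).differentiableAt (by simp)
  have bg' := big (K := C) (ok x) c.hP hG (fun _ => hψ.bd _) (t0.trans_eq (sq_pt _ _ _).symm) p0 db
    ((hK x _ (mem_ball_self (by norm_num)) ⟨mem_sphere_zero_iff_norm.2 (norm_smul_inv_norm p0),
      mem_closedBall_zero_iff.2 ?_⟩).2.trans (by linarith))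
  · have e1 : P366Y.J1 (loc (ch x) f) (pt x) = (f x, D1 f x) := Prod.ext (loc_pt f x) rfl
    have e2 : (lc X P 1 (ch x)).aJ P (pt x) (loc (ch x) ψ (pt x)) (P366Y.D1 (loc (ch x) f) (pt x)) =
        aJ X P ψ x (D1 f x) := by rw [loc_pt]; exact aJ_pt 1 ψ x _
    refine p0 (hB (loc (ch x) f) (fun y k l => Stmt.up (rep (ch x) bg) k l y)
      (fun q => (lc X P 1 (ch x)).aJ P q.1 (loc (ch x) ψ q.1) q.2)
      (fun q => (lc X P 1 (ch x)).bJ P s l σ q.1 (loc (ch x) ψ q.1) q.2.1 q.2.2) (pt x)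
      (hf.sm.lc he) (bg_met.rep he).sm_up ((Ld.c_aJ (ok x) contDiff_fst sψ' contDiff_snd
        (hG.lc (ok x) (hψ.bd _) _ _)).differentiableAt (by simp)) (e1 ▸ db) (eq_rep h hf he) ?_ ?_
      (fun i k l => ?_) (fun i j k l => ((hK₂ x i j k l).trans (le_abs_self _)).trans (by linarith))
      ?_ ?_ (fun ξ => ?_) (fun u w => (bg' u w).1) (fun u w => e1 ▸ (bg' u w).2) ?_)
    · have := isLocalMax_loc (x := x) (u := ip bg f f) (.of_forall hm)
      rwa [loc_ip he bg hf.sm.diff hf.sm.diff] at this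
    · simp only [up_pt]
      exact el_mono ⟨fun i j => bg_met.up_sy i j x, fun i j => (hb.up_bd x i j).1, hb.up_lo x⟩
        (by linarith)
    · exact ((P366Z.abs_pd_le (((bg_met.rep he).sm_up k l).diff _) i).trans
        (hb.up_bd x k l).2).trans (by linarith)
    · simp only [e2]
      exact (form h c.hP (hG _ (hψ.bd x) _ (s0 _))).1.1
    · simp only [e2]
      exact fun i j => ((hA ψ x (hψ.bd x) _ i j).trans (le_abs_self _)).trans (by linarith)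
    · have r7 := rc_mem (X.R + 7) x
      have := s0 (D1 f x)
      obtain ⟨k, hk⟩ := P366Y.J.GradH.tang ((mg h).loc' x) (pt x)
        (c := rc (X.R + 7) x * P.Gs (ψ x) (sq X.g x (D1 f x))) (p := D1 f x)
        (by rw [t2.1]; have := r7.1; positivity) (by
          rw [t2.1, mul_assoc, sq_pt]
          refine mul_le_one₀ r7.2 (by positivity) ?_
          rw [div_mul_eq_mul_div, div_le_one (by positivity)]
          linarith) ξ
      rw [sq_pt, am_pt, ← ag_eq] at hk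
      have u := (Real.rpow_pos_of_pos (U0 h x) (2 * bb n)).le
      have a1 := mul_le_mul_of_nonneg_left hk u
      have a2 := mul_nonneg u (s0 (ξ - k • D1 f x))
      refine ⟨k, (el x _).trans ?_⟩
      simp only [e2, aJ, mul_assoc, ← Finset.mul_sum]
      simp only [← mul_assoc (ag X P ψ x _ _ _)]
      exact mul_le_mul (by linarith) a1 a2 (by linarith)
    · have a1 : 4 * |C'| / P.τ ≤ P.om (ψ x) (sq X.g x (D1 f x)) := by
        rw [t2.2]
        refine Real.le_sqrt_of_sq_le ?_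
        have : (4 * |C'| / P.τ) ^ 2 ≤ Q ^ 2 := by gcongr; linarith
        linarith [sq_nonneg Q]
      rw [div_le_iff₀ p3] at a1
      have a2 := mul_le_mul (U_bd h x).1 a1 (by positivity)
        (Real.rpow_pos_of_pos (U0 h x) (2 * bb n)).le
      have a3 := Ld.dz (y := pt x) (t := loc (ch x) ψ (pt x)) (C := C') (ok x) c.hP hs hσ (f x)
        (D1 f x) (Real.sqrt_nonneg _) ((le_max_left _ _).trans hl) (by
          simp only [lc, loc_pt, sq_pt]
          linarith [le_abs_self C'])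
      have a4 := HasFDerivAt.comp_hasDerivAt (f := fun z : ℝ => (pt x, z, D1 f x)) (f x)
        db.hasFDerivAt ((hasDerivAt_const _ _).prodMk ((hasDerivAt_id _).prodMk
          (hasDerivAt_const _ _)))
      rw [e1]
      exact a3.trans_eq a4.deriv
  · simp only [norm_prod_le_iff, Real.norm_eq_abs]
    refine ⟨?_, ?_, c.hP.Tb _ hz, ?_, ?_⟩
    · rw [abs_of_pos (by positivity)]
      exact ((div_le_one N0).2 (by linarith)).trans (by linarith)
    · rw [abs_of_nonneg hσ.1]; linarith [hσ.2]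
    · rw [abs_le]
      constructor <;> linarith [Real.arctan_lt_pi_div_two (f x / s),
        Real.neg_pi_div_two_lt_arctan (f x / s), Real.pi_le_four]
    · rw [abs_div, abs_of_pos N0, abs_mul, abs_of_pos (by linarith : 0 < l)]
      refine ((div_le_one N0).2 ?_).trans (by linarith)
      have := mul_le_mul_of_nonneg_left hz (zero_le_one.trans l1)
      linarith

end Vale.Agent.P366M.Y.J
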