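import Vale.Agent.P366Y.J.Coef
import Vale.Agent.P366Y.J.Grad

/-!
# P366Q, block J: the coefficients of the equation of the gauge in one chart
-/

open Metric Filter Topology Set
open scoped ContDiff
open Vale.Agent.P366.Stmt Vale.Agent.P366Z Vale.Agent.P366Y.J

noncomputable section

namespace Vale.Agent.P366Y.JL

variable {n : ℕ}

/-- the data in a chart: `b` is the background metric -/
structure Ld (n : ℕ) where
  g : Field n
  b : Field n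
  K : Field n
  u : E n → ℝ
  c : E n → ℝ
  q : E n → ℝ
  κ : ℝ

namespace Ld

/-- the properties of the data -/
structure Ok (Y : Ld n) : Prop where
  mg : Met Y.g
  mb : Met Y.b
  sK : ∀ i j, Smooth fun y => Y.K y i j
  su : Smooth Y.u
  sc : Smooth Y.c
  sq : Smooth Y.q
  u0 : ∀ y, 1 / 4 ≤ Y.u y
  c0 : ∀ y, 0 ≤ Y.c y ∧ Y.c y ≤ 1
  q0 : ∀ y, 0 ≤ Y.q y

/-- the flat region -/
structure Far (Y : Ld n) (y : E n) : Prop where
  c : Y.c y = 0
  u : ∀ i j, Y.u y * up Y.g i j y = if i = j then 1 else 0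
  b : ∀ k i j, chr Y.b k i j y = 0

/-- the geometric principal part -/
def ag (Y : Ld n) (P : Pa) (y : E n) (t : ℝ) (p : Vc n) : Mx n := fun i j =>
  up Y.g i j y - Y.c y * P.Gs t (sq Y.g y p) * rs Y.g y p i * rs Y.g y p j

/-- the principal part -/
def aJ (Y : Ld n) (P : Pa) (y : E n) (t : ℝ) (p : Vc n) : Mx n := fun i j =>
  Y.u y * Y.ag P y t p i j

/-- the terms of order one -/
def o1 (Y : Ld n) (a : Mx n) (y : E n) (p : Vc n) : ℝ :=
  pr2 a fun i j => ∑ k, (chr Y.g k i j y - chr Y.b k i j y) * p k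

/-- the terms of order one of the background metric -/
def o2 (Y : Ld n) (a : Mx n) (y : E n) (p : Vc n) : ℝ :=
  Y.κ * (Y.u y * pr2 a fun i j => ∑ k, chr Y.b k i j y * p k)

/-- the right hand side with the value `α` of the arctangent -/
def bA (Y : Ld n) (P : Pa) (l : ℝ) (y : E n) (t z : ℝ) (p : Vc n) (σ α : ℝ) : ℝ :=
  σ * Y.c y * Y.u y * (P.om t (sq Y.g y p) * (pr2 (Y.ag P y t p) (Y.K y) + (P.T₁ z + Y.q y * α)) +
    Y.o1 (Y.ag P y t p) y p) + (1 - σ * Y.c y) * l * z + Y.o2 (Y.ag P y t p) y p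

/-- the right hand side -/
def bJ (Y : Ld n) (P : Pa) (s l σ : ℝ) (y : E n) (t z : ℝ) (p : Vc n) : ℝ :=
  Y.bA P l y t z p σ (Real.arctan (z / s))

variable {Y : Ld n} {P : Pa} {C : ℝ}

theorem Far.aJ {y : E n} (h : Y.Far y) (t : ℝ) (p : Vc n) : Y.aJ P y t p = eu n 0 := by
  funext i j
  simp only [Ld.aJ, ag, h.c, zero_mul, sub_zero, h.u, eu]

theorem Far.o2 {y : E n} (h : Y.Far y) (a : Mx n) (p : Vc n) : Y.o2 a y p = 0 := by
  simp [Ld.o2, h.b, pr2]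

theorem Far.bA {y : E n} (h : Y.Far y) (l t z : ℝ) (p : Vc n) (σ α : ℝ) :
    Y.bA P l y t z p σ α = l * z := by
  simp [Ld.bA, h.c, h.o2]

section smooth

open Coef

variable {Q : Type} [NormedAddCommGroup Q] [NormedSpace ℝ Q] {xx : Q → E n} {yy zz : Q → ℝ}
  {pp : Q → Vc n} {q : Q}

theorem c_ag (hY : Y.Ok) (hx : ContDiff ℝ ∞ xx) (hy : ContDiff ℝ ∞ yy) (hp : ContDiff ℝ ∞ pp)
    (hG : Ga P C (yy q) (sq Y.g (xx q) (pp q))) (i j : Fin n) :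
    ContDiffAt ℝ ∞ (fun q => Y.ag P (xx q) (yy q) (pp q) i j) q :=
  (ContDiff.comp (hY.mg.sm_up i j) hx).contDiffAt.sub
    ((((ContDiff.comp hY.sc hx).contDiffAt.mul (c_two hy (c_sq hY.mg hx hp) hG.sGs)).mul
      (c_rs hY.mg hx hp i).contDiffAt).mul (c_rs hY.mg hx hp j).contDiffAt)

theorem c_aJ (hY : Y.Ok) (hx : ContDiff ℝ ∞ xx) (hy : ContDiff ℝ ∞ yy) (hp : ContDiff ℝ ∞ pp)
    (hG : Ga P C (yy q) (sq Y.g (xx q) (pp q))) :
    ContDiffAt ℝ ∞ (fun q => Y.aJ P (xx q) (yy q) (pp q)) q :=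
  contDiffAt_pi.2 fun i => contDiffAt_pi.2 fun j =>
    (ContDiff.comp hY.su hx).contDiffAt.mul (c_ag hY hx hy hp hG i j)

theorem c_pr {m : WithTop ℕ∞} {a b : Q → Mx n} (ha : ∀ i j, ContDiffAt ℝ m (fun q => a q i j) q)
    (hb : ∀ i j, ContDiffAt ℝ m (fun q => b q i j) q) :
    ContDiffAt ℝ m (fun q => pr2 (a q) (b q)) q :=
  ContDiffAt.sum fun i _ => ContDiffAt.sum fun j _ => (ha i j).mul (hb i j)

theorem c_o1 (hY : Y.Ok) {a : Q → Mx n} (ha : ∀ i j, ContDiffAt ℝ ∞ (fun q => a q i j) q)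
    (hx : ContDiff ℝ ∞ xx) (hp : ContDiff ℝ ∞ pp) :
    ContDiffAt ℝ ∞ (fun q => Y.o1 (a q) (xx q) (pp q)) q :=
  c_pr ha fun i j => (ContDiff.sum fun k _ => ((ContDiff.comp (hY.mg.sm_chr k i j) hx).sub
    (ContDiff.comp (hY.mb.sm_chr k i j) hx)).mul (contDiff_pi.1 hp k)).contDiffAt

theorem c_o2 (hY : Y.Ok) {a : Q → Mx n} (ha : ∀ i j, ContDiffAt ℝ ∞ (fun q => a q i j) q)
    (hx : ContDiff ℝ ∞ xx) (hp : ContDiff ℝ ∞ pp) :
    ContDiffAt ℝ ∞ (fun q => Y.o2 (a q) (xx q) (pp q)) q :=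
  contDiffAt_const.mul ((ContDiff.comp hY.su hx).contDiffAt.mul (c_pr ha fun i j =>
    (ContDiff.sum fun k _ => (ContDiff.comp (hY.mb.sm_chr k i j) hx).mul
      (contDiff_pi.1 hp k)).contDiffAt))

theorem c_bA (hY : Y.Ok) (hP : P.Ok) (hx : ContDiff ℝ ∞ xx) (hy : ContDiff ℝ ∞ yy)
    (hz : ContDiff ℝ ∞ zz) (hp : ContDiff ℝ ∞ pp) (hG : Ga P C (yy q) (sq Y.g (xx q) (pp q)))
    (l : ℝ) {σ α : Q → ℝ} (hσ : ContDiff ℝ ∞ σ) (hα : ContDiff ℝ ∞ α) :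
    ContDiffAt ℝ ∞ (fun q => Y.bA P l (xx q) (yy q) (zz q) (pp q) (σ q) (α q)) q := by
  have h1 : ContDiff ℝ ∞ fun q => σ q * Y.c (xx q) := hσ.mul (ContDiff.comp hY.sc hx)
  have ha := c_ag hY hx hy hp hG
  exact (((h1.mul (ContDiff.comp hY.su hx)).contDiffAt.mul
    (((c_two hy (c_sq hY.mg hx hp) hG.som).mul
      ((c_pr ha fun i j => (ContDiff.comp (hY.sK i j) hx).contDiffAt).add
        ((hP.smT.comp hz).add ((ContDiff.comp hY.sq hx).mul hα)).contDiffAt)).add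
      (c_o1 hY ha hx hp))).add
    (((contDiff_const.sub h1).mul contDiff_const).mul hz).contDiffAt).add (c_o2 hY ha hx hp)

theorem c_bJ (hY : Y.Ok) (hP : P.Ok) (hx : ContDiff ℝ ∞ xx) (hy : ContDiff ℝ ∞ yy)
    (hz : ContDiff ℝ ∞ zz) (hp : ContDiff ℝ ∞ pp) (hG : Ga P C (yy q) (sq Y.g (xx q) (pp q)))
    (s l σ : ℝ) : ContDiffAt ℝ ∞ (fun q => Y.bJ P s l σ (xx q) (yy q) (zz q) (pp q)) q :=
  c_bA hY hP hx hy hz hp hG l contDiff_const (Real.contDiff_arctan.comp (hz.div_const s))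

end smooth

/-! ### the divergence form -/

/-- the exponent of the integrating factor -/
def GG (Y : Ld n) (P : Pa) (q : E n × ℝ × Vc n) : ℝ :=
  -(Y.c q.1 * P.G q.2.1 (sq Y.g q.1 q.2.2)) / 2

/-- the flux -/
def AA (Y : Ld n) (P : Pa) (i : Fin n) (q : E n × ℝ × Vc n) : ℝ :=
  Real.exp (Y.GG P q) * (Y.u q.1 * rs Y.g q.1 q.2.2 i)

theorem Far.GG {y : E n} (h : Y.Far y) (v : ℝ × Vc n) : Y.GG P (y, v) = 0 := by
  simp [Ld.GG, h.c]

theorem Far.AA {y : E n} (h : Y.Far y) (i : Fin n) (v : ℝ × Vc n) : Y.AA P i (y, v) = v.2 i := by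
  simp [Ld.AA, h.GG, rs, Finset.mul_sum, ← mul_assoc, h.u]

theorem sm_GG (hY : Y.Ok) {q : E n × ℝ × Vc n} (h : Ga P C q.2.1 (sq Y.g q.1 q.2.2)) :
    ContDiffAt ℝ ∞ (Y.GG P) q :=
  ((ContDiff.comp hY.sc contDiff_fst).contDiffAt.mul (Coef.c_two contDiff_snd.fst
    (Coef.c_sq hY.mg contDiff_fst contDiff_snd.snd) h.sG)).neg.div_const 2

theorem sm_AA (hY : Y.Ok) {q : E n × ℝ × Vc n} (h : Ga P C q.2.1 (sq Y.g q.1 q.2.2)) (i : Fin n) :
    ContDiffAt ℝ ∞ (Y.AA P i) q :=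
  (sm_GG hY h).exp.mul ((ContDiff.comp hY.su contDiff_fst).mul
    (Coef.c_rs hY.mg contDiff_fst contDiff_snd.snd i)).contDiffAt

theorem d_AA (hY : Y.Ok) {t : ℝ} {x : E n} {p : Vc n} (h : Ga P C t (sq Y.g x p))
    (i : Fin n) (η : Vc n) : fderiv ℝ (Y.AA P i) (x, t, p) (0, 0, η) =
      Real.exp (Y.GG P (x, t, p)) * ∑ j, Y.aJ P x t p i j * η j := by
  have h1 := ((sm_AA (q := (x, t, p)) hY h i).differentiableAt (by simp)).hasFDerivAt.hasLineDerivAt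
    (0, 0, η)
  have hp : ∀ j, HasDerivAt (fun τ : ℝ => p j + τ * η j) (η j) 0 := fun j => by
    simpa using ((hasDerivAt_id (0 : ℝ)).mul_const (η j)).const_add (p j)
  have hS : HasDerivAt (fun τ : ℝ => sq Y.g x (p + τ • η)) (2 * ∑ j, rs Y.g x p j * η j) 0 := by
    have := HasDerivAt.fun_sum (u := Finset.univ) fun a _ => HasDerivAt.fun_sum (u := Finset.univ)
      fun b _ => ((hp a).const_mul (up Y.g a b x)).fun_mul (hp b)
    refine HasDerivAt.congr_deriv this ?_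
    simp only [zero_mul, add_zero, Finset.sum_add_distrib, rs, Finset.sum_mul, two_mul]
    congr 1
    · exact Finset.sum_congr rfl fun a _ => Finset.sum_congr rfl fun b _ => by ring
    · rw [Finset.sum_comm]
      exact Finset.sum_congr rfl fun a _ => Finset.sum_congr rfl fun b _ => by
        rw [hY.mg.up_sy]
  have hR : HasDerivAt (fun τ : ℝ => rs Y.g x (p + τ • η) i) (∑ j, up Y.g i j x * η j) 0 :=
    HasDerivAt.fun_sum (u := Finset.univ) fun j _ => (hp j).const_mul (up Y.g i j x)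
  have hG : HasDerivAt (fun τ : ℝ => P.G t (sq Y.g x (p + τ • η)))
      (P.Gs t (sq Y.g x p) * (2 * ∑ j, rs Y.g x p j * η j)) 0 :=
    HasDerivAt.comp_of_eq (h₂ := P.G t) 0 h.dG hS (by simp)
  have h2 := (((hG.const_mul (Y.c x)).fun_neg.div_const 2).exp).fun_mul (hR.const_mul (Y.u x))
  have e : (fun τ : ℝ => Y.AA P i ((x, t, p) + τ • (0, 0, η))) = fun τ : ℝ =>
      Real.exp (-(Y.c x * P.G t (sq Y.g x (p + τ • η))) / 2) * (Y.u x * rs Y.g x (p + τ • η) i) := by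
    funext τ
    simp [AA, GG]
  unfold HasLineDerivAt at h1
  rw [e] at h1
  rw [h1.unique h2]
  have e2 : ∑ j, Y.aJ P x t p i j * η j = Y.u x * (∑ j, up Y.g i j x * η j -
      Y.c x * P.Gs t (sq Y.g x p) * rs Y.g x p i * ∑ j, rs Y.g x p j * η j) := by
    simp only [aJ, ag, Finset.mul_sum, ← Finset.sum_sub_distrib]
    exact Finset.sum_congr rfl fun j _ => by ring
  rw [e2]
  simp only [GG, zero_smul, add_zero]
  ring

theorem pd_V (hY : Y.Ok) {ψ f : E n → ℝ} (hψ : Smooth ψ) (hf : Smooth f) {x : E n}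
    (h : Ga P C (ψ x) (sq Y.g x (D1 f x))) (i k : Fin n) :
    pd k (fun z => Y.AA P i (z, ψ z, D1 f z)) x - Real.exp (Y.GG P (x, ψ x, D1 f x)) *
      ∑ j, Y.aJ P x (ψ x) (D1 f x) i j * pd k (pd j f) x =
      fderiv ℝ (Y.AA P i) (x, ψ x, D1 f x) (EuclideanSpace.single k 1, pd k ψ x, 0) := by
  have hQ : HasFDerivAt (fun z => (z, ψ z, D1 f z)) ((ContinuousLinearMap.id ℝ _).prod
      ((fderiv ℝ ψ x).prod (ContinuousLinearMap.pi fun j => fderiv ℝ (pd j f) x))) x :=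
    (hasFDerivAt_id x).prodMk ((hψ.diff x).hasFDerivAt.prodMk
      (hasFDerivAt_pi.2 fun j => ((hf.pd j).diff x).hasFDerivAt))
  have hA := ((sm_AA (q := (x, ψ x, D1 f x)) hY h i).differentiableAt (by simp)).hasFDerivAt
  have h1 := pd_of_hasFDerivAt (HasFDerivAt.comp (f := fun z => (z, ψ z, D1 f z)) x hA hQ) k
  rw [show pd k (fun z => Y.AA P i (z, ψ z, D1 f z)) x = _ from h1,
    ← d_AA hY h i fun j => pd k (pd j f) x, ContinuousLinearMap.comp_apply, ← map_sub]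
  congr 1
  ext j <;> simp [pd_eq (hψ.diff x), pd_eq ((hf.pd _).diff x)]

/-! ### large gradients -/

/-- the principal part for large gradients -/
def Aw (Y : Ld n) (L : ℝ) (y : E n) (w : Vc n) (v : ℝ) : Mx n := fun i j =>
  up Y.g i j y - Y.c y * (4 * L / (v ^ 2 + 4 * L * sq Y.g y w)) * rs Y.g y w i * rs Y.g y w j

/-- the rescaled principal part -/
def Fa (Y : Ld n) (L : ℝ) (q : GradH.Zp n) : Mx n := fun i j =>
  Y.u q.1 * Y.Aw L q.1 q.2.1 q.2.2.1 i j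

/-- the rescaled right hand side -/
def Fb (Y : Ld n) (L : ℝ) (q : GradH.Zp n) : ℝ :=
  q.2.2.2.1 * Y.c q.1 * Y.u q.1 * (√(q.2.2.1 ^ 2 / 4 + sq Y.g q.1 q.2.1) *
    (pr2 (Y.Aw L q.1 q.2.1 q.2.2.1) (Y.K q.1) + (q.2.2.2.2.1 + Y.q q.1 * q.2.2.2.2.2.1)) +
      Y.o1 (Y.Aw L q.1 q.2.1 q.2.2.1) q.1 q.2.1) + (1 - q.2.2.2.1 * Y.c q.1) * q.2.2.2.2.2.2 +
    Y.o2 (Y.Aw L q.1 q.2.1 q.2.2.1) q.1 q.2.1

theorem Far.F {y : E n} (h : Y.Far y) (L : ℝ) (v : Vc n × ℝ × ℝ × ℝ × ℝ × ℝ) :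
    (Y.Fa L (y, v), Y.Fb L (y, v)) = (eu n 0, v.2.2.2.2.2) := by
  refine Prod.ext (funext fun i => funext fun j => ?_) ?_
  · simp only [Fa, Aw, h.c, zero_mul, sub_zero, h.u, eu]
  · simp [Fb, h.c, h.o2]

theorem c_F (h : Y.Ok) {L : ℝ} (hL : 0 < L) {q : GradH.Zp n} (hq : q.2.1 ≠ 0) :
    ContDiffAt ℝ ∞ (Y.Fa L) q ∧ ContDiffAt ℝ ∞ (Y.Fb L) q := by
  have s0 : 0 < sq Y.g q.1 q.2.1 := h.mg.up_pos q.1 hq
  have c : ∀ {f : E n → ℝ}, Smooth f → ContDiffAt ℝ ∞ (fun q : GradH.Zp n => f q.1) q := fun hf =>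
    (ContDiff.comp hf contDiff_fst).contDiffAt
  have cw : ContDiff ℝ ∞ fun q : GradH.Zp n => q.2.1 := contDiff_snd.fst
  have cs := (Coef.c_sq h.mg contDiff_fst cw).contDiffAt (x := q)
  have cr := fun i => (Coef.c_rs h.mg contDiff_fst cw i).contDiffAt (x := q)
  have cv : ContDiffAt ℝ ∞ (fun q : GradH.Zp n => q.2.2.1 ^ 2) q := by fun_prop
  have cA : ∀ i j, ContDiffAt ℝ ∞ (fun q : GradH.Zp n => Y.Aw L q.1 q.2.1 q.2.2.1 i j) q :=
    fun i j => (c (h.mg.sm_up i j)).sub ((((c h.sc).mul (contDiffAt_const.div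
      (cv.add (contDiffAt_const.mul cs)) (by positivity))).mul (cr i)).mul (cr j))
  have cσ : ContDiffAt ℝ ∞ (fun q : GradH.Zp n => q.2.2.2.1 * Y.c q.1) q :=
    ContDiffAt.mul (by fun_prop) (c h.sc)
  exact ⟨contDiffAt_pi.2 fun i => contDiffAt_pi.2 fun j => (c h.su).mul (cA i j),
    (((cσ.mul (c h.su)).mul (ContDiffAt.add (ContDiffAt.mul (((cv.div_const 4).add cs).sqrt
      (by positivity)) ((c_pr cA fun i j => c (h.sK i j)).add (ContDiffAt.add (by fun_prop)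
        ((c h.sq).mul (by fun_prop))))) (c_o1 h cA contDiff_fst cw))).add
      ((contDiffAt_const.sub cσ).mul (by fun_prop))).add (c_o2 h cA contDiff_fst cw)⟩

variable {t : ℝ} {y : E n} {N : ℝ} {w : Vc n}

theorem ag_w (h : Y.Ok) (hL : 0 < P.L) (hN : 0 < N)
    (e : P.Gs t (sq Y.g y (N • w)) = 4 * P.L / (1 + 4 * P.L * sq Y.g y (N • w))) :
    Y.ag P y t (N • w) = Y.Aw P.L y w (1 / N) := by
  funext i j
  have s0 : 0 ≤ sq Y.g y w := h.mg.up_nonneg y w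
  simp only [ag, Aw, e]
  rw [GradH.sq_smul, GradH.rs_smul, GradH.rs_smul]
  field_simp

theorem pr_smul (a : Mx n) (Γ : Fin n → Mx n) (N : ℝ) (w : Vc n) :
    (pr2 a fun i j => ∑ k, Γ k i j * (N • w) k) = N * pr2 a fun i j => ∑ k, Γ k i j * w k := by
  simp only [pr2, Pi.smul_apply, smul_eq_mul, Finset.mul_sum]
  exact Finset.sum_congr rfl fun i _ => Finset.sum_congr rfl fun j _ =>
    Finset.sum_congr rfl fun k _ => by ring

theorem b_w (hN : 0 < N) (ea : Y.ag P y t (N • w) = Y.Aw P.L y w (1 / N))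
    (e : P.om t (sq Y.g y (N • w)) = √(1 / 4 + sq Y.g y (N • w))) (s l σ z : ℝ) :
    Y.bJ P s l σ y t z (N • w) =
      N * Y.Fb P.L (y, w, 1 / N, σ, P.T₁ z, Real.arctan (z / s), l * z / N) := by
  have e1 : √(1 / 4 + sq Y.g y (N • w)) = N * √((1 / N) ^ 2 / 4 + sq Y.g y w) := by
    rw [GradH.sq_smul, show 1 / 4 + N ^ 2 * sq Y.g y w = N ^ 2 * ((1 / N) ^ 2 / 4 + sq Y.g y w) by
      field_simp, Real.sqrt_mul (sq_nonneg N), Real.sqrt_sq hN.le]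
  simp only [bJ, bA, Fb, o1, o2, ea, e, e1]
  rw [pr_smul _ fun k i j => chr Y.g k i j y - chr Y.b k i j y, pr_smul _ fun k i j => chr Y.b k i j y]
  field_simp

/-- the derivative in `z` -/
theorem dz (h : Y.Ok) (hP : P.Ok) {s l σ C : ℝ} (hs : 0 < s) (hσ : σ ∈ Icc (0 : ℝ) 1) (z : ℝ)
    (p : Vc n) (o0 : 0 ≤ P.om t (sq Y.g y p)) (hl : C ≤ l)
    (hC : C ≤ Y.u y * (P.om t (sq Y.g y p) * P.τ)) :
    C ≤ deriv (fun z => Y.bJ P s l σ y t z p) z := by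
  have d1 : HasDerivAt P.T₁ (deriv P.T₁ z) z := (hP.smT.differentiable (by simp) z).hasDerivAt
  have d2 : HasDerivAt (fun z => Real.arctan (z / s)) (1 / (1 + (z / s) ^ 2) * (1 / s)) z :=
    ((hasDerivAt_id z).div_const s).arctan
  have d := (((((d1.add (d2.const_mul (Y.q y))).const_add (pr2 (Y.ag P y t p) (Y.K y))).const_mul
    (P.om t (sq Y.g y p))).add_const (Y.o1 (Y.ag P y t p) y p)).const_mul
      (σ * Y.c y * Y.u y) |>.add ((hasDerivAt_id z).const_mul ((1 - σ * Y.c y) * l))).add_const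
      (Y.o2 (Y.ag P y t p) y p)
  refine le_trans ?_ (d.deriv.symm.le)
  have r7 := h.c0 y
  have u : 0 ≤ Y.u y := by linarith [h.u0 y]
  have w0 := h.q0 y
  have w1 : P.τ ≤ deriv P.T₁ z + Y.q y * (1 / (1 + (z / s) ^ 2) * (1 / s)) :=
    le_add_of_le_of_nonneg (hP.Td z) (by positivity)
  have k0 : 0 ≤ σ * Y.c y := mul_nonneg hσ.1 r7.1
  have k1 : σ * Y.c y ≤ 1 := mul_le_one₀ hσ.2 r7.1 r7.2
  have w2 := hC.trans (mul_le_mul_of_nonneg_left (mul_le_mul_of_nonneg_left w1 o0) u)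
  have w3 := mul_le_mul_of_nonneg_left w2 k0
  have w4 := mul_le_mul_of_nonneg_left hl (sub_nonneg.2 k1)
  linarith

end Ld

end Vale.Agent.P366Y.JL
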