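import Vale.Agent.P366Q.J.Defs
import Vale.Agent.P366Q.J.Ld
import Vale.Agent.P366Q.T.Big
import Vale.Agent.P366M.Fl

/-!
# P366Q, block J: the equation of the gauge in the charts
-/

open MeasureTheory Metric Filter Topology Set
open scoped ContDiff ENNReal
open Vale.Agent.P366 Vale.Agent.P366.Stmt Vale.Agent.P366Z Vale.Agent.P366Y
open Vale.Agent.P366Y.J (io Ga GA PROF Psd big_mono)
open Vale.Agent.P366Y.JL (Ld)

noncomputable section

namespace Vale.Agent.P366M.Y.J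

variable {n : ℕ} {M : Type} [Mfe n M] {X : Dat n M} {P : Pa} {e : Ch n M} {x : M} {y : E n}

/-- the data in the chart `e` -/
def lc (X : Dat n M) (P : Pa) (κ : ℝ) (e : Ch n M) : Ld n where
  g := rep e X.g
  b := rep e bg
  K := rep e X.K
  u := loc e fun x => X.U x ^ (2 * bb n)
  c := loc e (rc (X.R + 7))
  q := loc e fun x => rc (X.R + 3) x * X.p x + (1 - rc (X.R + 3) x) * P.p₁
  κ := κ

theorem U_bd (h : X.Ok) (x : M) : 1 / 4 ≤ X.U x ^ (2 * bb n) ∧ X.U x ^ (2 * bb n) ≤ 2 := by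
  have b0 := bb_pos h.dim
  have b2 := bb_le h.dim
  constructor
  · refine le_trans ?_ (Real.rpow_le_rpow (by norm_num) (h.Ub x).1 (by linarith))
    refine le_trans ?_ (Real.rpow_le_rpow_of_exponent_ge (z := 2 * bb n) (y := (4 : ℕ))
      (by norm_num) (by norm_num) (by push_cast; linarith))
    rw [Real.rpow_natCast]; norm_num
  · refine le_trans (Real.rpow_le_rpow (U0 h x).le (h.Ub x).2 (by linarith)) ?_
    refine le_trans (Real.rpow_le_rpow_of_exponent_le (y := 2 * bb n) (z := (4 : ℕ))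
      (by norm_num) (by push_cast; linarith)) ?_
    rw [Real.rpow_natCast]; norm_num

theorem lc_ok (hX : X.Ok) (hP : P.Ok) (κ : ℝ) (he : e ∈ At M) : (lc X P κ e).Ok :=
  ⟨(mg hX).rep he, bg_met.rep he, hX.smK e he, (hX.smU.rpow (U0 hX) _).lc he, (sm_rc _).lc he,
    Smooth.lc (((sm_rc _).mul hX.smp).add ((cd_const.sub (sm_rc _)).mul cd_const)) he,
    fun _ => (U_bd hX _).1, fun _ => rc_mem _ _, fun _ =>
      add_nonneg (mul_nonneg (rc_mem _ _).1 (hX.pb _).1)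
        (mul_nonneg (sub_nonneg.2 (rc_mem _ _).2) hP.pos.2.2.2.2.2.2.1.le)⟩

theorem U_mul (hX : X.Ok) (x : M) : X.U x ^ (2 * bb n) * X.U x ^ (-(2 * bb n)) = 1 := by
  rw [← Real.rpow_add (U0 hX x), add_neg_cancel, Real.rpow_zero]

theorem U_up (hX : X.Ok) (x : M) (i j : Fin n) :
    X.U x ^ (2 * bb n) * up X.g i j x = up X.g₀ i j x := by
  rw [Dat.g, hX.met.up_cf (U0 hX x), ← mul_assoc, U_mul hX, one_mul]

theorem lc_far (hX : X.Ok) (κ : ℝ) (hx : X.ρ + 4 ≤ ‖px x‖) (hy : y ∈ ball (pt x) 4) :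
    (lc X P κ (ch x)).Far y := by
  have r := hX.flat.lt
  have h2 := (far_ball (by linarith) hy).2
  refine ⟨rc_zero (by linarith [hX.R1]) (by linarith [hX.Rρ]), fun i j => ?_, fun k i j => ?_⟩
  · have : Stmt.up (rep (ch x) X.g) i j y = up X.g i j ((ch x).symm y) := by
      unfold Stmt.up Stmt.mat
      rw [(rep_far (by linarith) hy X.g).1]
      rfl
    exact (congrArg (_ * ·) this).trans ((U_up hX _ i j).trans (hX.flat.up_eq (by linarith) i j))
  · have : rep (ch x) bg =ᶠ[𝓝 y] P366Z.eu n := by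
      filter_upwards [isOpen_ball.mem_nhds hy] with z hz
      exact (flat_bg hX.flat.R).rep_ball hx hz
    exact (P366Z.chr_of_ev this k i j).trans (congrFun (P366Z.chr_eu k i j) y)

theorem sq_rep (he : e ∈ At M) (g : Fld n M) (w : M → Vc n) (y : E n) :
    P366Y.sq (rep e g) y (rC e w y) = sq g (e.symm y) (w (e.symm y)) := by
  simp only [P366Y.sq, up_rep]
  exact quadU_rep he (fun x i j => up g i j x) (fun k x => w x k) (fun k x => w x k) y

theorem rs_rep (he : e ∈ At M) (g : Fld n M) (w : M → Vc n) (y : E n) (i : Fin n) :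
    P366Y.rs (rep e g) y (rC e w y) i = repV e (fun i x => rs g x (w x) i) i y := by
  simp only [P366Y.rs, up_rep]
  exact (congrFun (congrFun (raise_rep he (fun x i j => up g i j x) fun k x => w x k) i) y).symm

theorem ag_rep (he : e ∈ At M) (κ : ℝ) (ψ : M → ℝ) (w : M → Vc n) (y : E n) :
    repU e (fun x => ag X P ψ x (w x)) y = (lc X P κ e).ag P y (loc e ψ y) (rC e w y) := by
  have : (fun x => ag X P ψ x (w x)) = fun x i j => up X.g i j x -
      rc (X.R + 7) x * P.Gs (ψ x) (sq X.g x (w x)) * (rs X.g x (w x) i * rs X.g x (w x) j) := by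
    funext x i j
    simp only [ag, mul_assoc]
  rw [this, repU_sub, repU_smul, repU_prod e (fun i x => rs X.g x (w x) i) fun i x => rs X.g x (w x) i]
  funext i j
  simp only [Ld.ag, lc, sq_rep he, rs_rep he, up_rep, mul_assoc, loc]

theorem aJ_rep (he : e ∈ At M) (κ : ℝ) (ψ : M → ℝ) (w : M → Vc n) (y : E n) :
    repU e (fun x => aJ X P ψ x (w x)) y = (lc X P κ e).aJ P y (loc e ψ y) (rC e w y) := by
  have := congrFun (repU_smul e (fun x => X.U x ^ (2 * bb n)) fun x => ag X P ψ x (w x)) y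
  rw [ag_rep he κ] at this
  exact this

theorem gc_rep {g g' : Fld n M} (hg : Met g) (hg' : Met g') (he : e ∈ At M) (w : M → Vc n)
    (y : E n) : rep e (fun x i j => ∑ k, (chr g k i j x - chr g' k i j x) * w x k) y =
      fun i j => ∑ k, (Stmt.chr (rep e g) k i j y - Stmt.chr (rep e g') k i j y) * rC e w y k := by
  obtain ⟨u, hu⟩ : ∃ u : M → ℝ, u = fun z => ∑ k, w (e.symm y) k * ch (e.symm y) z k := ⟨_, rfl⟩
  have e1 : loc (ch (e.symm y)) u = fun z => ∑ k, w (e.symm y) k * z k := by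
    funext z
    simp only [hu, loc, right_inv (ch_mem _)]
  have c2 : CAt 2 u (e.symm y) := by
    unfold CAt
    rw [e1]
    fun_prop
  have e2 : D1 u (e.symm y) = w (e.symm y) := funext fun k => by
    unfold D1 pd
    rw [e1, P366Z.pd_sum _ fun k _ => by fun_prop]
    simp [P366Z.pd_const_mul, P366Z.pd_coord]
  have e3 : P366Y.D1 (loc e u) y = rC e w y := by
    rw [← rC_D1 he (diff2 c2), rC_eq, rC_eq, e2]
  have e4 := (d2_loc hg he c2).symm.trans (d2_loc hg' he c2)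
  have e5 : rep e (fun x i j => ∑ k, (chr g k i j x - chr g' k i j x) * w x k) y =
      rep e (hess g' u) y - rep e (hess g u) y := by
    rw [rep_eq, rep_eq, rep_eq, ← map_sub]
    congr 1
    funext i j
    simp only [Pi.sub_apply, hess, ← e2, D1, sub_mul, Finset.sum_sub_distrib]
    ring
  rw [e5, eq_sub_of_add_eq e4, e3]
  funext i j
  simp only [Pi.sub_apply, Pi.add_apply, gc, Gm, sub_mul, Finset.sum_sub_distrib]
  ring

theorem bJ_rep (hX : X.Ok) (he : e ∈ At M) (s l σ : ℝ) (ψ : M → ℝ) (w : M → Vc n) (y : E n)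
    (z : ℝ) : bJ X P s l σ ψ (e.symm y) z (w (e.symm y)) =
      (lc X P 0 e).bJ P s l σ y (loc e ψ y) z (rC e w y) := by
  have e1 := pr2_rep he (fun x => ag X P ψ x (w x)) X.K y
  have e2 := pr2_rep he (fun x => ag X P ψ x (w x))
    (fun x i j => ∑ k, (chr X.g k i j x - chr bg k i j x) * w x k) y
  rw [gc_rep (mg hX) bg_met he] at e2
  rw [ag_rep he 0] at e1 e2
  rw [bJ, e1, e2, ← sq_rep he]
  simp only [Ld.bJ, Ld.bA, Ld.o1, Ld.o2, lc, zero_mul, add_zero, cap, loc]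

theorem rC_tC (he : e ∈ At M) (y : E n) (p : Vc n) : rC e (fun _ => tC e y p) y = p := by
  rw [rC_eq, mC_tC he]

theorem rC_loc {f : M → ℝ} (hf : Smooth f) (he : e ∈ At M) :
    rC e (D1 f) = P366Y.D1 (loc e f) := funext fun _ => rC_D1 he (hf.diff _)

theorem aJ_pt (κ : ℝ) (ψ : M → ℝ) (x : M) (p : Vc n) :
    (lc X P κ (ch x)).aJ P (pt x) (ψ x) p = aJ X P ψ x p := by
  have := aJ_rep (X := X) (P := P) (ch_mem x) κ ψ (fun _ => p) (pt x)
  rw [repU_pt, rC_pt, loc_pt] at this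
  exact this.symm

theorem bJ_pt (hX : X.Ok) (s l σ : ℝ) (ψ : M → ℝ) (x : M) (z : ℝ) (p : Vc n) :
    (lc X P 0 (ch x)).bJ P s l σ (pt x) (ψ x) z p = bJ X P s l σ ψ x z p := by
  have := bJ_rep (P := P) hX (ch_mem x) s l σ ψ (fun _ => p) (pt x) z
  rw [rC_pt, loc_pt, symm_pt] at this
  exact this.symm

/-- the equation in a chart -/
theorem eq_rep {s l σ : ℝ} {ψ f : M → ℝ} (hX : X.Ok) (hf : Jf X P s l σ ψ f) (he : e ∈ At M)
    (y : E n) : pr2 ((lc X P 1 e).aJ P y (loc e ψ y) (P366Y.D1 (loc e f) y))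
      (P366Y.D2 (loc e f) y) =
      (lc X P 1 e).bJ P s l σ y (loc e ψ y) (loc e f y) (P366Y.D1 (loc e f) y) := by
  have e1 := (pr2_rep he (fun x => aJ X P ψ x (D1 f x)) (D2 f) y).symm.trans
    ((hf.eqn _).trans (bJ_rep hX he s l σ ψ (D1 f) y _))
  rw [aJ_rep he 1, rC_loc hf.sm he] at e1
  rw [d2_loc bg_met he (hf.sm.c2 _)]
  have e2 : ∀ a A B : Mx n, pr2 a (A + B) = pr2 a A + pr2 a B := fun a A B => by
    simp only [pr2, Pi.add_apply, mul_add, Finset.sum_add_distrib]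
  rw [e2, show hess bg f = D2 f from rfl, e1]
  simp only [Ld.bJ, Ld.bA, Ld.o1, Ld.o2, Ld.aJ, Ld.ag, lc, zero_mul, add_zero, one_mul, pr2, gc, Gm,
    Finset.mul_sum, mul_assoc, Finset.sum_const_zero]
  rfl

/-! ### uniform bounds -/

section V

variable {V W : Type} [NormedAddCommGroup V] [NormedSpace ℝ V] [NormedAddCommGroup W]
  [NormedSpace ℝ W] {S : Set V} {F : Ch n M → E n × V → W} {G : V → W} {R : ℝ}

theorem unifD (hS : IsCompact S) (hF : ∀ x : M, ∀ q, q.2 ∈ S → ContDiffAt ℝ ∞ (F (ch x)) q)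
    (hG : ContDiff ℝ ∞ G)
    (h0 : ∀ x : M, R ≤ ‖px x‖ → ∀ y ∈ ball (pt x) 4, ∀ v, F (ch x) (y, v) = G v) :
    ∃ Λ > (0 : ℝ), ∀ x : M, ∀ q : E n × V, q.1 ∈ ball (pt x) 4 → q.2 ∈ S →
      ‖F (ch x) q‖ ≤ Λ ∧ ‖fderiv ℝ (F (ch x)) q‖ ≤ Λ := by
  obtain ⟨C, -, hC⟩ := pt_le M
  have hK := (isCompact_closedBall (0 : E n) (C + R + 4)).prod hS
  obtain ⟨B, hB⟩ := unif (M := M) (P := fun e B => ∀ q ∈ closedBall (0 : E n) (C + R + 4) ×ˢ S,
    ‖(F e q, fderiv ℝ (F e) q)‖ ≤ B) (fun e a b hab h q hq => (h q hq).trans hab) fun x =>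
      hK.exists_bound_of_continuousOn fun q hq => ((hF x q hq.2).continuousAt.prodMk
        ((hF x q hq.2).fderiv_right (m := 0) (by simp)).continuousAt).continuousWithinAt
  obtain ⟨A, hA⟩ := hS.exists_bound_of_continuousOn
    (hG.continuous.prodMk (hG.continuous_fderiv (by simp))).continuousOn
  refine ⟨|A| + |B| + 1, by positivity, fun x q h1 h2 => ?_⟩
  have a0 := le_abs_self A
  have b0 := le_abs_self B
  have a1 := abs_nonneg A
  have b1 := abs_nonneg B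
  rcases le_total R ‖px x‖ with h | h
  · have k := norm_prod_le_iff.1 (hA _ h2)
    have ev : F (ch x) =ᶠ[𝓝 q] G ∘ Prod.snd := by
      filter_upwards [(isOpen_ball.preimage continuous_fst).mem_nhds h1] with r hr
      exact h0 x h _ hr _
    rw [ev.fderiv_eq, ev.eq_of_nhds, ((hG.differentiable (by simp) q.2).hasFDerivAt.comp q
      hasFDerivAt_snd).fderiv]
    refine ⟨k.1.trans (by linarith), (ContinuousLinearMap.opNorm_comp_le _ _).trans ?_⟩
    linarith [mul_le_of_le_one_right (norm_nonneg (fderiv ℝ G q.2))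
      (ContinuousLinearMap.norm_snd_le ℝ (E n) V), k.2]
  · have k := norm_prod_le_iff.1 (hB x q ⟨mem_closedBall_zero_iff.2
      (by linarith [norm_le_of_ball h1, hC x]), h2⟩)
    exact ⟨by linarith [k.1], by linarith [k.2]⟩

theorem unifL (hS : IsCompact S) (hc : Convex ℝ S)
    (hF : ∀ x : M, ∀ q, q.2 ∈ S → ContDiffAt ℝ ∞ (F (ch x)) q) (hG : ContDiff ℝ ∞ G)
    (h0 : ∀ x : M, R ≤ ‖px x‖ → ∀ y ∈ ball (pt x) 4, ∀ v, F (ch x) (y, v) = G v) :
    ∃ Λ > (0 : ℝ), ∀ x : M, ∀ q : E n × V, q.1 ∈ ball (pt x) 4 → q.2 ∈ S →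
      ‖F (ch x) q‖ ≤ Λ ∧ ∀ q' : E n × V, q'.1 ∈ ball (pt x) 4 → q'.2 ∈ S →
        ‖F (ch x) q - F (ch x) q'‖ ≤ Λ * ‖q - q'‖ := by
  obtain ⟨Λ, Λ0, h⟩ := unifD hS hF hG h0
  exact ⟨Λ, Λ0, fun x q h1 h2 => ⟨(h x q h1 h2).1, fun q' h3 h4 =>
    Convex.norm_image_sub_le_of_norm_fderiv_le (𝕜 := ℝ) (s := ball (pt x) 4 ×ˢ S)
      (fun r hr => (hF x r hr.2).differentiableAt (by simp)) (fun r hr => (h x r hr.1 hr.2).2)
      ((convex_ball _ _).prod hc) ⟨h3, h4⟩ ⟨h1, h2⟩⟩⟩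

end V

end Vale.Agent.P366M.Y.J
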